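import Vale.Agent.P147.Renewal
import Vale.Agent.P147.Dir.Union

/-!
Blocks for a real direction.  A regeneration exceeds all earlier levels by at least `4`.
-/

noncomputable section

namespace Vale.Agent.P147.Re

open MeasureTheory ProbabilityTheory Filter
open scoped ENNReal

set_option linter.unusedSectionVars false

variable {d : ℕ} {μ : Measure (Row d)} {ℓ : Fin d → ℝ}

/-- Real level function. -/
def lev (ℓ : Fin d → ℝ) : (Fin d → ℤ) →+ ℝ where
  toFun x := ∑ i, ℓ i * (x i : ℝ)
  map_zero' := by simp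
  map_add' x y := by simp [mul_add, Finset.sum_add_distrib]

lemma lev_eq_dotR (ℓ : Fin d → ℝ) (x : Fin d → ℤ) : lev ℓ x = dotR ℓ x := rfl

lemma lev_neg_left (ℓ : Fin d → ℝ) (x : Fin d → ℤ) : lev (-ℓ) x = -lev ℓ x := by
  simp [lev]

/-- Level at time `i` along a finite path. -/
def Lt (ℓ : Fin d → ℝ) (l : List (Dir d)) (i : ℕ) : ℝ := lev ℓ (endPt (l.take i))

@[simp] lemma Lt_zero (ℓ : Fin d → ℝ) (l : List (Dir d)) : Lt ℓ l 0 = 0 := by simp [Lt]

lemma Lt_length (ℓ : Fin d → ℝ) (l : List (Dir d)) : Lt ℓ l l.length = lev ℓ (endPt l) := by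
  simp [Lt]

lemma Lt_append_left (ℓ : Fin d → ℝ) (l m : List (Dir d)) {i : ℕ} (h : i ≤ l.length) :
    Lt ℓ (l ++ m) i = Lt ℓ l i := by
  simp [Lt, List.take_append_of_le_length h]

lemma Lt_append_right (ℓ : Fin d → ℝ) (l m : List (Dir d)) (i : ℕ) :
    Lt ℓ (l ++ m) (l.length + i) = lev ℓ (endPt l) + Lt ℓ m i := by
  simp [Lt, List.take_length_add_append, map_add]

/-- A regeneration time of a finite path. -/
def RegenAt (ℓ : Fin d → ℝ) (l : List (Dir d)) (j : ℕ) : Prop :=
  (∀ i < j, Lt ℓ l i + 4 ≤ Lt ℓ l j) ∧ ∀ i, j ≤ i → i ≤ l.length → Lt ℓ l j ≤ Lt ℓ l i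

/-- A block: the piece of a trajectory between two consecutive regeneration times. -/
structure IsBlock (ℓ : Fin d → ℝ) (l : List (Dir d)) : Prop where
  ne : l ≠ []
  nonneg : ∀ i ≤ l.length, 0 ≤ Lt ℓ l i
  last : ∀ i < l.length, Lt ℓ l i + 4 ≤ Lt ℓ l l.length
  noRegen : ∀ j, 0 < j → j < l.length → ¬RegenAt ℓ l j

/-- The type of blocks. -/
def Blk (ℓ : Fin d → ℝ) : Type := {l : List (Dir d) // IsBlock ℓ l}

instance (ℓ : Fin d → ℝ) : Countable (Blk ℓ) :=
  inferInstanceAs (Countable {l : List (Dir d) // IsBlock ℓ l})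

/-- Nonnegative levels, tending to `+∞`. -/
def Dp (ℓ : Fin d → ℝ) : Set (Walk d) :=
  {s | (∀ n, 0 ≤ lev ℓ (pos s n)) ∧ Tendsto (fun n => lev ℓ (pos s n)) atTop atTop}

lemma measurable_lev_pos (ℓ : Fin d → ℝ) (n : ℕ) :
    Measurable fun s : Walk d => lev ℓ (pos s n) :=
  (measurable_of_countable (lev ℓ)).comp (measurable_pos n)

lemma measurableSet_Dp (ℓ : Fin d → ℝ) : MeasurableSet (Dp ℓ) :=
  (measurableSet_D0R ℓ).inter (measurableSet_AR ℓ)

lemma Lt_pre (s : Walk d) {i n : ℕ} (h : i ≤ n) :
    Lt ℓ (pre s n) i = lev ℓ (pos s i) := by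
  simp [Lt, endPt_take_pre s h]

/-- Concatenation of blocks. -/
def cat {k : ℕ} (bs : Fin k → Blk ℓ) : List (Dir d) := (List.ofFn fun i => (bs i).1).flatten

lemma cat_succ {k : ℕ} (bs : Fin (k + 1) → Blk ℓ) :
    cat bs = (bs 0).1 ++ cat (Fin.tail bs) := by
  simp [cat, List.ofFn_succ, Fin.tail]

lemma cat_zero (bs : Fin 0 → Blk ℓ) : cat bs = [] := by simp [cat]

lemma endPt_cat {k : ℕ} (bs : Fin k → Blk ℓ) : endPt (cat bs) = ∑ i, endPt (bs i).1 := by
  induction k with
  | zero => simp [cat_zero]
  | succ k ih => rw [cat_succ, endPt_append, Fin.sum_univ_succ, ih]; rfl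

lemma IsBlock.length_pos {l : List (Dir d)} (h : IsBlock ℓ l) : 0 < l.length :=
  List.length_pos_iff.2 h.ne

lemma IsBlock.lev_ge {l : List (Dir d)} (h : IsBlock ℓ l) : 4 ≤ lev ℓ (endPt l) := by
  simpa [Lt_length] using h.last 0 h.length_pos

lemma IsBlock.lev_pos {l : List (Dir d)} (h : IsBlock ℓ l) : 0 < lev ℓ (endPt l) := by
  linarith [h.lev_ge]

lemma cat_nonneg {k : ℕ} (bs : Fin k → Blk ℓ) :
    ∀ i ≤ (cat bs).length, 0 ≤ Lt ℓ (cat bs) i := by
  induction k with
  | zero => simp [cat_zero]
  | succ k ih =>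
    intro i hi
    rw [cat_succ] at hi ⊢
    rcases le_total i (bs 0).1.length with h | h
    · rw [Lt_append_left _ _ _ h]; exact (bs 0).2.nonneg i h
    · obtain ⟨j, rfl⟩ := Nat.exists_eq_add_of_le h
      rw [Lt_append_right]
      have := ih (Fin.tail bs) j (by simp at hi; omega)
      linarith [(bs 0).2.lev_pos]

lemma cat_last {k : ℕ} (bs : Fin k → Blk ℓ) :
    ∀ i < (cat bs).length, Lt ℓ (cat bs) i + 4 ≤ lev ℓ (endPt (cat bs)) := by
  induction k with
  | zero => simp [cat_zero]
  | succ k ih =>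
    intro i hi
    rw [cat_succ] at hi ⊢
    rw [endPt_append, map_add]
    rcases lt_or_ge i (bs 0).1.length with h | h
    · rw [Lt_append_left _ _ _ h.le]
      have h1 := (bs 0).2.last i h
      rw [Lt_length] at h1
      have h2 := cat_nonneg (Fin.tail bs) _ le_rfl
      rw [Lt_length] at h2
      linarith
    · obtain ⟨j, rfl⟩ := Nat.exists_eq_add_of_le h
      rw [Lt_append_right]
      have := ih (Fin.tail bs) j (by simp at hi; omega)
      linarith

/-- The decomposition into blocks is unique. -/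
lemma cat_inj {k k' : ℕ} (bs : Fin k → Blk ℓ) (bs' : Fin k' → Blk ℓ) (h : cat bs = cat bs') :
    ∃ e : k = k', bs' ∘ Fin.cast e = bs := by
  induction k generalizing k' with
  | zero =>
    cases k' with
    | zero => exact ⟨rfl, funext fun i => i.elim0⟩
    | succ k' =>
      rw [cat_zero, cat_succ] at h
      exact absurd (List.append_eq_nil_iff.1 h.symm).1 (bs' 0).2.ne
  | succ k ih =>
    cases k' with
    | zero =>
      rw [cat_zero, cat_succ] at h
      exact absurd (List.append_eq_nil_iff.1 h).1 (bs 0).2.ne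
    | succ k' =>
      have h' := h
      rw [cat_succ, cat_succ] at h'
      have key : ∀ {m m' : ℕ} (u : Fin (m + 1) → Blk ℓ) (v : Fin (m' + 1) → Blk ℓ),
          (u 0).1 ++ cat (Fin.tail u) = (v 0).1 ++ cat (Fin.tail v) →
          ¬(u 0).1.length < (v 0).1.length := by
        intro m m' u v huv hlt
        refine (v 0).2.noRegen _ (u 0).2.length_pos hlt ⟨fun i hi => ?_, fun i hi hi' => ?_⟩
        · rw [← Lt_append_left ℓ _ (cat (Fin.tail v)) (hi.trans hlt).le,
            ← Lt_append_left ℓ _ (cat (Fin.tail v)) hlt.le, ← huv,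
            Lt_append_left ℓ _ _ hi.le, Lt_append_left ℓ _ _ le_rfl]
          exact (u 0).2.last i hi
        · rw [← Lt_append_left ℓ _ (cat (Fin.tail v)) hi',
            ← Lt_append_left ℓ _ (cat (Fin.tail v)) hlt.le, ← huv,
            Lt_append_left ℓ _ _ le_rfl]
          obtain ⟨j, rfl⟩ := Nat.exists_eq_add_of_le hi
          rw [Lt_append_right, Lt_length]
          have := cat_nonneg (Fin.tail u) j (by
            have := congrArg List.length huv
            simp at this; omega)
          linarith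
      have hlen : (bs 0).1.length = (bs' 0).1.length :=
        le_antisymm (not_lt.1 (key bs' bs h'.symm)) (not_lt.1 (key bs bs' h'))
      obtain ⟨h0, ht⟩ := List.append_inj h' hlen
      obtain ⟨e, he⟩ := ih (Fin.tail bs) (Fin.tail bs') ht
      refine ⟨by omega, funext fun i => ?_⟩
      subst e
      refine Fin.cases ?_ (fun i => ?_) i
      · exact Subtype.ext h0.symm
      · exact congrFun he i

/-- Regeneration time of an infinite trajectory. -/
def RegenTime (ℓ : Fin d → ℝ) (s : Walk d) (j : ℕ) : Prop :=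
  (∀ i < j, lev ℓ (pos s i) + 4 ≤ lev ℓ (pos s j)) ∧ ∀ i, j ≤ i → lev ℓ (pos s j) ≤ lev ℓ (pos s i)

/-- The event that the trajectory starts with the blocks `bs` and is then in `Dp`. -/
def blkEvent {k : ℕ} (bs : Fin k → Blk ℓ) : Set (Walk d) :=
  cyl (cat bs) ∩ shift (cat bs).length ⁻¹' Dp ℓ

lemma measurableSet_blkEvent {k : ℕ} (bs : Fin k → Blk ℓ) : MeasurableSet (blkEvent bs) :=
  (measurableSet_cyl _).inter (measurable_shift _ (measurableSet_Dp ℓ))

lemma lev_pos_shift (s : Walk d) (a b : ℕ) :
    lev ℓ (pos s (a + b)) = lev ℓ (pos s a) + lev ℓ (pos (shift a s) b) := by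
  rw [pos_add, map_add]

lemma tendsto_shift_iff (s : Walk d) (a : ℕ) :
    Tendsto (fun n => lev ℓ (pos (shift a s) n)) atTop atTop ↔
      Tendsto (fun n => lev ℓ (pos s n)) atTop atTop := by
  conv_rhs => rw [← tendsto_add_atTop_iff_nat a]
  simp_rw [add_comm _ a, lev_pos_shift]
  constructor
  · intro h; exact tendsto_atTop_add_const_left _ _ h
  · intro h; simpa using tendsto_atTop_add_const_left atTop (-lev ℓ (pos s a)) h

lemma blkEvent_subset_Dp {k : ℕ} (bs : Fin k → Blk ℓ) : blkEvent bs ⊆ Dp ℓ := by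
  rintro s ⟨hc, hD⟩
  refine ⟨fun n => ?_, (tendsto_shift_iff s _).1 hD.2⟩
  rcases le_total n (cat bs).length with h | h
  · rw [pos_of_mem_cyl hc h]; exact cat_nonneg bs n h
  · obtain ⟨j, rfl⟩ := Nat.exists_eq_add_of_le h
    rw [lev_pos_shift, pos_of_mem_cyl hc le_rfl]
    have h1 := cat_nonneg bs _ le_rfl
    have h2 := hD.1 j
    simp only [Lt] at h1
    linarith

lemma exists_cat_of_regen {s : Walk d} (hs : s ∈ Dp ℓ) (j : ℕ) (hj : RegenTime ℓ s j) :
    ∃ k, ∃ bs : Fin k → Blk ℓ, cat bs = pre s j ∧ s ∈ blkEvent bs := by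
  classical
  induction j using Nat.strong_induction_on generalizing s with
  | _ j ih =>
    rcases Nat.eq_zero_or_pos j with rfl | hpos
    · refine ⟨0, Fin.elim0, by simp [cat_zero, pre], ?_, ?_⟩
      · simp [cat_zero]
      · simp only [cat_zero, List.length_nil, Set.mem_preimage]
        convert hs using 1
        funext i; simp [shift]
    · have hex : ∃ i, 0 < i ∧ RegenTime ℓ s i := ⟨j, hpos, hj⟩
      obtain ⟨h0, hi⟩ := Nat.find_spec hex
      set i := Nat.find hex with hidef
      have hij : i ≤ j := Nat.find_le ⟨hpos, hj⟩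
      have hblk : IsBlock ℓ (pre s i) := by
        refine ⟨fun h => by have := congrArg List.length h; simp at this; omega,
          fun a ha => ?_, fun a ha => ?_,
          fun a ha ha' hr => Nat.find_min hex (lt_of_lt_of_eq ha' (length_pre s i))
            ⟨ha, fun b hb => ?_, fun b hb => ?_⟩⟩
        · rw [Lt_pre s (by simpa using ha)]; exact hs.1 a
        · rw [length_pre] at ha ⊢
          rw [Lt_pre s ha.le, Lt_pre s le_rfl]; exact hi.1 a ha
        · rw [length_pre] at ha'
          have := hr.1 b hb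
          rwa [Lt_pre s (hb.trans ha').le, Lt_pre s ha'.le] at this
        · rw [length_pre] at ha'
          rcases le_total b i with hbi | hbi
          · have := hr.2 b hb (by simpa using hbi)
            rwa [Lt_pre s hbi, Lt_pre s ha'.le] at this
          · linarith [hi.1 a ha', hi.2 b hbi]
      have hs' : shift i s ∈ Dp ℓ := by
        refine ⟨fun n => ?_, (tendsto_shift_iff s i).2 hs.2⟩
        have := hi.2 (i + n) (by omega)
        rw [lev_pos_shift] at this
        linarith
      have hj' : RegenTime ℓ (shift i s) (j - i) := by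
        refine ⟨fun a ha => ?_, fun a ha => ?_⟩
        · have := hj.1 (i + a) (by omega)
          rw [← Nat.add_sub_cancel' hij, lev_pos_shift, lev_pos_shift] at this
          linarith
        · have := hj.2 (i + a) (by omega)
          rw [← Nat.add_sub_cancel' hij, lev_pos_shift, lev_pos_shift] at this
          linarith
      obtain ⟨k, bs, hcat, hmem⟩ := ih (j - i) (by omega) hs' hj'
      have hc : ∀ b0 : Blk ℓ, b0.1 = pre s i →
          cat (Fin.cons (α := fun _ => Blk ℓ) b0 bs) = pre s j := by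
        intro b0 hb0
        rw [cat_succ, Fin.tail_cons, hcat, Fin.cons_zero, hb0, ← pre_append_shift,
          Nat.add_sub_cancel' hij]
      have hc := hc ⟨pre s i, hblk⟩ rfl
      refine ⟨k + 1, _, hc, ?_, ?_⟩
      · rw [hc, mem_cyl_iff]; simp
      · rw [hc, length_pre, Set.mem_preimage]
        refine ⟨fun n => ?_, (tendsto_shift_iff s j).2 hs.2⟩
        have := hj.2 (j + n) (by omega)
        rw [lev_pos_shift] at this
        linarith

lemma blkEvent_regen {k : ℕ} (bs : Fin k → Blk ℓ) {s : Walk d} (hs : s ∈ blkEvent bs) :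
    RegenTime ℓ s (cat bs).length := by
  refine ⟨fun i hi => ?_, fun i hi => ?_⟩
  · rw [pos_of_mem_cyl hs.1 hi.le, pos_of_mem_cyl hs.1 le_rfl, List.take_length]
    exact cat_last bs i hi
  · obtain ⟨j, rfl⟩ := Nat.exists_eq_add_of_le hi
    have := hs.2.1 j
    rw [lev_pos_shift]; linarith

lemma blkEvent_disjoint (k : ℕ) :
    Pairwise fun bs bs' : Fin k → Blk ℓ => Disjoint (blkEvent bs) (blkEvent bs') := by
  intro bs bs' hne
  rw [Set.disjoint_left]
  intro s hs hs'
  apply hne
  induction k generalizing s with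
  | zero => exact funext fun i => i.elim0
  | succ k ih =>
    have key : ∀ {u v : Fin (k + 1) → Blk ℓ}, s ∈ blkEvent u → s ∈ blkEvent v →
        ¬(u 0).1.length < (v 0).1.length := by
      intro u v hu hv hlt
      have hu' : ∀ i ≤ (u 0).1.length, pos s i = endPt ((u 0).1.take i) := by
        intro i hi
        rw [pos_of_mem_cyl hu.1 (by rw [cat_succ]; simp; omega), cat_succ,
          List.take_append_of_le_length hi]
      have hv' : ∀ i ≤ (v 0).1.length, pos s i = endPt ((v 0).1.take i) := by
        intro i hi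
        rw [pos_of_mem_cyl hv.1 (by rw [cat_succ]; simp; omega), cat_succ,
          List.take_append_of_le_length hi]
      refine (v 0).2.noRegen _ (u 0).2.length_pos hlt ⟨fun i hi => ?_, fun i hi hi' => ?_⟩
      · simp only [Lt]
        rw [← hv' i (hi.trans hlt).le, ← hv' _ hlt.le, hu' i hi.le, hu' _ le_rfl]
        exact (u 0).2.last i hi
      · simp only [Lt]
        rw [← hv' i hi', ← hv' _ hlt.le, hu' _ le_rfl, List.take_length]
        rcases le_total i (cat u).length with h | h
        · rw [pos_of_mem_cyl hu.1 h, cat_succ]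
          obtain ⟨j, rfl⟩ := Nat.exists_eq_add_of_le hi
          have h3 := Lt_append_right ℓ (u 0).1 (cat (Fin.tail u)) j
          simp only [Lt] at h3
          rw [h3]
          have := cat_nonneg (Fin.tail u) j (by rw [cat_succ] at h; simp at h; omega)
          simp only [Lt] at this
          linarith
        · obtain ⟨j, rfl⟩ := Nat.exists_eq_add_of_le h
          rw [lev_pos_shift, pos_of_mem_cyl hu.1 le_rfl, List.take_length, cat_succ, endPt_append,
            map_add]
          have h4 := hu.2.1 j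
          have := cat_nonneg (Fin.tail u) _ le_rfl
          rw [Lt_length] at this
          rw [cat_succ] at h4
          linarith
    have hlen : (bs 0).1.length = (bs' 0).1.length :=
      le_antisymm (not_lt.1 (key hs' hs)) (not_lt.1 (key hs hs'))
    have hA := hs.1
    have hB := hs'.1
    rw [cat_succ, cyl_append] at hA hB
    have h0 : bs 0 = bs' 0 :=
      Subtype.ext (((mem_cyl_iff _ _).1 hA.1).symm.trans (hlen ▸ (mem_cyl_iff _ _).1 hB.1))
    have aux : ∀ u : Fin (k + 1) → Blk ℓ, s ∈ blkEvent u →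
        shift (u 0).1.length s ∈ blkEvent (Fin.tail u) := by
      intro u hu
      have h1 := hu.1
      rw [cat_succ, cyl_append] at h1
      refine ⟨h1.2, ?_⟩
      have h2 := hu.2
      simp only [Set.mem_preimage] at h2 ⊢
      convert h2 using 1
      funext i; simp [shift, cat_succ, add_assoc]
    have ht : Fin.tail bs = Fin.tail bs' := by
      by_contra hne'
      exact hne' (ih hne' (aux bs hs) (hlen ▸ aux bs' hs'))
    rw [← Fin.cons_self_tail bs, ← Fin.cons_self_tail bs', h0, ht]

variable [IsProbabilityMeasure μ]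

theorem annealed_blkEvent {k : ℕ} (bs : Fin k → Blk ℓ) :
    annealed μ (blkEvent bs) = (∏ i, W μ (bs i).1) * annealed μ (Dp ℓ) := by
  have hfr : ∀ {m : ℕ} (u : Fin m → Blk ℓ) (s : Walk d), s ∈ Dp ℓ → ∀ n,
      endPt (cat u) + pos s n ∉ srcs 0 (cat u) := by
    intro m u s hs n h
    obtain ⟨i, hi, he⟩ := mem_srcs.1 h
    rw [zero_add] at he
    have h1 := congrArg (lev ℓ) he
    rw [map_add] at h1
    have h2 := cat_last u i hi
    have h3 := hs.1 n
    simp only [Lt] at h2
    linarith
  rw [blkEvent, annealed_fresh _ (measurableSet_Dp ℓ) (hfr bs)]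
  congr 1
  induction k with
  | zero => simp [cat_zero, W, qw]
  | succ k ih =>
    rw [cat_succ, W_append, ih, Fin.prod_univ_succ]
    · rfl
    · intro z hz hz'
      obtain ⟨i, hi, rfl⟩ := mem_srcs.1 hz
      obtain ⟨i', hi', he⟩ := mem_srcs.1 hz'
      rw [zero_add] at he
      have h1 := congrArg (lev ℓ) he
      rw [map_add] at h1
      have h2 := (bs 0).2.last i' hi'
      rw [Lt_length] at h2
      have h3 := cat_nonneg (Fin.tail bs) i hi.le
      simp only [Lt] at h2 h3
      linarith

end Vale.Agent.P147.Re
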