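import Vale.Agent.P147.Real.Cone

/-!
Blocks of bounded height in a real direction have lateral extent of finite mean.
-/

noncomputable section

namespace Vale.Agent.P147.Re

open MeasureTheory ProbabilityTheory Filter
open scoped ENNReal

set_option linter.unusedSectionVars false

variable {d : ℕ} {μ : Measure (Row d)} {ℓ : Fin d → ℝ} {ψ : (Fin d → ℤ) →+ ℤ}

/-- First passages of `ψ` over `n` within the strip of levels `[0, H0]`. -/
def RecSet (ℓ : Fin d → ℝ) (ψ : (Fin d → ℤ) →+ ℤ) (H0 n : ℕ) : Set (List (Dir d)) :=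
  {l | (n : ℤ) ≤ ψ (endPt l) ∧ (∀ i < l.length, ψ (endPt (l.take i)) < n) ∧
    ∀ i ≤ l.length, 0 ≤ Lt ℓ l i ∧ Lt ℓ l i ≤ H0}

lemma recSet_unique {H0 n : ℕ} (s : Walk d) (a b : ℕ) (ha : pre s a ∈ RecSet ℓ ψ H0 n)
    (hb : pre s b ∈ RecSet ℓ ψ H0 n) : a = b := by
  by_contra hne
  wlog hab : a < b generalizing a b
  · exact this b a hb ha (Ne.symm hne) (by omega)
  have h1 := hb.2.1 a (by simpa using hab)
  have h2 := ha.1
  rw [endPt_take_pre s hab.le] at h1
  rw [endPt_pre] at h2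
  omega

variable [IsProbabilityMeasure μ]

/-- Two further records have probability decreased by a fixed factor. -/
lemma recSet_step (hψ : ∀ e, |ψ (dirVec e)| ≤ 1) {e f : Dir d} (hN : Nrm ℓ e)
    (heψ : ψ (dirVec e) = 0) (hf : ψ (dirVec f) = 1) (H0 n : ℕ) :
    ∑' l : RecSet ℓ ψ H0 (n + 2), W μ l.1 ≤
      (1 - W μ (f :: List.replicate (H0 + 2) e)) *
        ∑' l : RecSet ℓ ψ H0 n, W μ l.1 := by
  classical
  set π := f :: List.replicate (H0 + 2) e with hπ
  have hπψ : ∀ i, 1 ≤ i → i ≤ π.length → ψ (endPt (π.take i)) = 1 := by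
    intro i h1 h2
    obtain ⟨j, rfl⟩ := Nat.exists_eq_add_of_le h1
    rw [add_comm, hπ, List.take_succ_cons, endPt_cons, map_add, hf, List.take_replicate,
      endPt_replicate, map_nsmul, heψ, nsmul_zero, add_zero]
  have hlen : ∀ l : RecSet ℓ ψ H0 n, ψ (endPt l.1) = n := by
    rintro ⟨l, hl⟩
    refine le_antisymm ?_ hl.1
    rcases l.eq_nil_or_concat with h0 | ⟨l', a, h0⟩
    · subst h0; simp
    · rw [List.concat_eq_append] at h0
      subst h0
      have h1 := hl.2.1 l'.length (by simp)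
      rw [List.take_left] at h1
      simp only [endPt_append, endPt_cons, endPt_nil, add_zero, map_add]
      have := (abs_le.1 (hψ a)).2
      omega
  have hW : ∀ l : RecSet ℓ ψ H0 n, W μ (l.1 ++ π) = W μ l.1 * W μ π := by
    intro l
    refine W_append _ _ fun z hz hz' => ?_
    obtain ⟨i, hi, rfl⟩ := mem_srcs.1 hz
    obtain ⟨i', hi', hzz⟩ := mem_srcs.1 hz'
    rw [zero_add] at hzz
    have h1 := congrArg ψ hzz
    rw [map_add, hlen l] at h1
    have h2 := l.2.2.1 i' hi'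
    rcases Nat.eq_zero_or_pos i with h0 | h0
    · subst h0; simp at h1; omega
    · rw [hπψ i h0 hi.le] at h1; omega
  have htop : ∀ l : RecSet ℓ ψ H0 n, (H0 : ℝ) < lev ℓ (endPt (l.1 ++ π)) := by
    intro l
    have h0 := (l.2.2.2 l.1.length le_rfl).1
    rw [Lt_length] at h0
    rw [endPt_append, map_add, hπ, endPt_cons, map_add, endPt_replicate, map_nsmul, nsmul_eq_mul,
      hN.step]
    have h1 := neg_le_of_abs_le (hN.le f)
    have h2 : (0 : ℝ) ≤ H0 := H0.cast_nonneg
    push_cast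
    linarith
  -- every later record extends an earlier one
  let F : RecSet ℓ ψ H0 n → Set (List (Dir d)) := fun l =>
    {l' | l' ∈ RecSet ℓ ψ H0 (n + 2) ∧ l'.take l.1.length = l.1}
  have cover : (⋃ l' : RecSet ℓ ψ H0 (n + 2), cyl l'.1) ⊆
      ⋃ l : RecSet ℓ ψ H0 n, cyl l.1 \ cyl (l.1 ++ π) := by
    intro s hs
    obtain ⟨⟨l', hl'⟩, hs⟩ := Set.mem_iUnion.1 hs
    have hpl : pre s l'.length = l' := (mem_cyl_iff _ _).1 hs
    have hex : ∃ a, (n : ℤ) ≤ ψ (pos s a) := by
      refine ⟨l'.length, ?_⟩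
      rw [← endPt_pre, hpl]
      have := hl'.1; push_cast at this; omega
    have ha1 := Nat.find_spec hex
    set a := Nat.find hex
    have hal : a ≤ l'.length := Nat.find_le (by
      rw [← endPt_pre, hpl]; have := hl'.1; push_cast at this; omega)
    have hmem : pre s a ∈ RecSet ℓ ψ H0 n := by
      refine ⟨by rw [endPt_pre]; exact ha1, fun i hi => ?_, fun i hi => ?_⟩
      · rw [length_pre] at hi
        rw [endPt_take_pre s hi.le]
        exact not_le.1 (Nat.find_min hex hi)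
      · rw [length_pre] at hi
        rw [Lt_pre s hi]
        have := hl'.2.2 i (hi.trans hal)
        rw [← hpl, Lt_pre s (hi.trans hal)] at this
        exact this
    refine Set.mem_iUnion.2 ⟨⟨pre s a, hmem⟩, (mem_cyl_iff _ _).2 (by simp), fun hc => ?_⟩
    simp only [cyl_append, length_pre, Set.mem_inter_iff, Set.mem_preimage] at hc
    have hψa : ψ (pos s a) = n := by simpa [endPt_pre] using hlen ⟨pre s a, hmem⟩
    have hπpos : ∀ i ≤ π.length, pos s (a + i) = pos s a + endPt (π.take i) := fun i hi => by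
      rw [pos_add, pos_of_mem_cyl hc.2 hi]
    rcases le_or_gt (a + π.length) l'.length with h | h
    · have h1 := (hl'.2.2 (a + π.length) h).2
      rw [← hpl, Lt_pre s h, hπpos _ le_rfl, List.take_length] at h1
      have h2 := htop ⟨pre s a, hmem⟩
      rw [endPt_append, endPt_pre] at h2
      linarith
    · obtain ⟨i, hi⟩ := Nat.exists_eq_add_of_le hal
      have h1 : ((n + 2 : ℕ) : ℤ) ≤ ψ (pos s l'.length) := by
        rw [← endPt_pre, hpl]; exact hl'.1
      rw [hi, hπpos i (by omega), map_add, hψa] at h1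
      push_cast at h1
      rcases Nat.eq_zero_or_pos i with h0 | h0
      · subst h0; simp at h1
      · rw [hπψ i h0 (by omega)] at h1; omega
  calc ∑' l : RecSet ℓ ψ H0 (n + 2), W μ l.1
      = annealed μ (⋃ l' : RecSet ℓ ψ H0 (n + 2), cyl l'.1) := by
        rw [measure_iUnion (cyl_pairwise_disjoint recSet_unique) fun l => measurableSet_cyl _]
        exact tsum_congr fun l => (annealed_cyl _).symm
    _ ≤ ∑' l : RecSet ℓ ψ H0 n, annealed μ (cyl l.1 \ cyl (l.1 ++ π)) :=
        (measure_mono cover).trans (measure_iUnion_le _)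
    _ ≤ ∑' l : RecSet ℓ ψ H0 n, (1 - W μ π) * W μ l.1 := by
        refine ENNReal.tsum_le_tsum fun l => le_of_eq ?_
        rw [measure_sdiff (by rw [cyl_append]; exact Set.inter_subset_left)
          (measurableSet_cyl _).nullMeasurableSet (measure_ne_top _ _), annealed_cyl, annealed_cyl,
          hW, ENNReal.sub_mul (fun _ _ => W_ne_top _), one_mul, mul_comm]
    _ = _ := ENNReal.tsum_mul_left

lemma sum_recSet_ne_top (he' : IsElliptic μ) (hψ : ∀ e, |ψ (dirVec e)| ≤ 1) {e f : Dir d}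
    (hN : Nrm ℓ e) (heψ : ψ (dirVec e) = 0) (hf : ψ (dirVec f) = 1) (H0 : ℕ) :
    ∑' n, ∑' l : RecSet ℓ ψ H0 n, W μ l.1 ≠ ⊤ := by
  set η := W μ (f :: List.replicate (H0 + 2) e)
  set r := fun n => ∑' l : RecSet ℓ ψ H0 n, W μ l.1
  have hη : (1 - η) < 1 :=
    ENNReal.sub_lt_self ENNReal.one_ne_top one_ne_zero (W_pos he' _).ne'
  have hr1 : ∀ n, r n ≤ 1 := fun n => (tsum_W_le (μ := μ) (E := Set.univ) recSet_unique
    fun l _ => Set.subset_univ _).trans prob_le_one
  have hgeo : ∀ m i, r (2 * m + i) ≤ (1 - η) ^ m := by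
    intro m
    induction m with
    | zero => intro i; simpa using hr1 _
    | succ m ih =>
      intro i
      rw [show 2 * (m + 1) + i = 2 * m + i + 2 by ring, pow_succ, mul_comm ((1 - η) ^ m)]
      exact (recSet_step hψ hN heψ hf H0 _).trans (mul_le_mul' le_rfl (ih i))
  have hsum : ∑' m : ℕ, (1 - η) ^ m ≠ ⊤ := by
    rw [ENNReal.tsum_geometric]
    exact ENNReal.inv_ne_top.2 (tsub_pos_of_lt hη).ne'
  rw [← tsum_even_add_odd (f := r) ENNReal.summable ENNReal.summable]
  exact ENNReal.add_ne_top.2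
    ⟨ne_top_of_le_ne_top hsum (ENNReal.tsum_le_tsum fun m => by simpa using hgeo m 0),
      ne_top_of_le_ne_top hsum (ENNReal.tsum_le_tsum fun m => hgeo m 1)⟩

open scoped Classical in
/-- The mean positive extent of blocks of height at most `H0`. -/
lemma pos_extent_le {e : Dir d} (hel : IsElliptic μ) (hN : Nrm ℓ e) (hp : annealed μ (Dp ℓ) ≠ 0)
    (H0 n : ℕ) :
    annealed μ (Dp ℓ) * ∑' b : Blk ℓ, (if blkLev b ≤ H0 ∧ ∃ i ≤ b.1.length,
        (n : ℤ) ≤ ψ (endPt (b.1.take i)) then blkPMF hel hN hp b else 0) ≤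
      ∑' l : RecSet ℓ ψ H0 n, W μ l.1 := by
  let B : Set (Blk ℓ) := {b | blkLev b ≤ H0 ∧ ∃ i ≤ b.1.length, (n : ℤ) ≤ ψ (endPt (b.1.take i))}
  have e1 : annealed μ (Dp ℓ) * ∑' b : Blk ℓ, (if b ∈ B then blkPMF hel hN hp b else 0) =
      annealed μ (⋃ b : B, blkEvent (ℓ := ℓ) fun _ : Fin 1 => b.1) := by
    rw [measure_iUnion (fun b b' hne => blkEvent_disjoint 1 fun hc =>
      hne (Subtype.ext (congrFun hc 0))) fun b => measurableSet_blkEvent _]
    simp only [annealed_blkEvent, Fin.prod_univ_one]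
    rw [ENNReal.tsum_mul_right, mul_comm, tsum_subtype B (fun b => W μ b.1)]
    congr 1
    exact tsum_congr fun b => by rw [Set.indicator_apply, blkPMF_apply]
  refine le_trans (le_of_eq e1) (le_trans (measure_mono ?_)
    ((measure_iUnion_le _).trans (le_of_eq (tsum_congr fun l => annealed_cyl _))))
  intro s hs
  obtain ⟨⟨b, hbH, i, hi, hbi⟩, hs⟩ := Set.mem_iUnion.1 hs
  have hc : s ∈ cyl b.1 := by simpa [blkEvent, cat] using hs.1
  have hex : ∃ a, (n : ℤ) ≤ ψ (pos s a) := ⟨i, by rw [pos_of_mem_cyl hc hi]; exact hbi⟩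
  have hai : Nat.find hex ≤ i := Nat.find_le (by rw [pos_of_mem_cyl hc hi]; exact hbi)
  refine Set.mem_iUnion.2 ⟨⟨pre s (Nat.find hex), by rw [endPt_pre]; exact Nat.find_spec hex,
    fun j hj => ?_, fun j hj => ?_⟩, (mem_cyl_iff _ _).2 (by simp)⟩
  · rw [length_pre] at hj
    rw [endPt_take_pre s hj.le]
    exact not_le.1 (Nat.find_min hex hj)
  · rw [length_pre] at hj
    rw [Lt_pre s hj, pos_of_mem_cyl hc (by omega)]
    have hj' : j ≤ b.1.length := by omega
    refine ⟨b.2.nonneg j hj', le_trans ?_ ((lev_le_blkLev b).trans (Nat.cast_le.2 hbH))⟩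
    rcases hj'.lt_or_eq with h | h
    · have := b.2.last j h
      rw [Lt_length] at this
      simp only [Lt] at this
      linarith
    · rw [h, List.take_length]

/-- The mean extent of blocks of height at most `H0` is finite. -/
theorem short_extent_ne_top {e f f' : Dir d} (he' : IsElliptic μ) (hN : Nrm ℓ e) (hp : annealed μ (Dp ℓ) ≠ 0)
    (hψ : ∀ e, |ψ (dirVec e)| ≤ 1)
    (heψ : ψ (dirVec e) = 0) (hf : ψ (dirVec f) = 1) (hf' : ψ (dirVec f') = -1) (H0 : ℕ) :
    ∑' b, {b : Blk ℓ | blkLev b ≤ H0}.indicator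
      (fun b => blkPMF he' hN hp b * (lext ψ b : ℝ≥0∞)) b ≠ ⊤ := by
  classical
  set p := annealed μ (Dp ℓ)
  set q := blkPMF he' hN hp
  let G : ((Fin d → ℤ) →+ ℤ) → ℕ → Blk ℓ → ℝ≥0∞ := fun φ n b =>
    if blkLev b ≤ H0 ∧ ∃ i ≤ b.1.length, ((n + 1 : ℕ) : ℤ) ≤ φ (endPt (b.1.take i))
      then q b else 0
  have hψ' : ∀ e, |(-ψ) (dirVec e)| ≤ 1 := fun e => by simpa using hψ e
  have hfin : ∀ φ : (Fin d → ℤ) →+ ℤ, (∀ e, |φ (dirVec e)| ≤ 1) →
      ∑' n, ∑' l : RecSet ℓ φ H0 n, W μ l.1 ≠ ⊤ → ∑' n, ∑' b, G φ n b ≠ ⊤ := by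
    intro φ hφ hr
    have h1 : p * ∑' n, ∑' b, G φ n b ≠ ⊤ := by
      refine ne_top_of_le_ne_top hr ?_
      rw [← ENNReal.tsum_mul_left]
      exact (ENNReal.tsum_le_tsum fun n => pos_extent_le he' hN hp H0 (n + 1)).trans
        (ENNReal.tsum_comp_le_tsum_of_injective (fun _ _ h => Nat.succ_injective h) _)
    exact fun ht => h1 (by rw [ht, ENNReal.mul_top hp])
  have h2 := hfin ψ hψ (sum_recSet_ne_top he' hψ hN heψ hf H0)
  have h3 := hfin (-ψ) hψ' (sum_recSet_ne_top he' hψ' hN (by simp [heψ]) (f := f')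
    (by simp [hf']) H0)
  refine ne_top_of_le_ne_top (ENNReal.add_ne_top.2 ⟨h2, h3⟩) ?_
  rw [ENNReal.tsum_comm (f := fun n b => G ψ n b), ENNReal.tsum_comm (f := fun n b => G (-ψ) n b),
    ← ENNReal.tsum_add]
  refine ENNReal.tsum_le_tsum fun b => ?_
  by_cases hb : blkLev b ≤ H0
  swap
  · rw [Set.indicator_of_notMem (by exact hb)]; exact zero_le
  rw [Set.indicator_of_mem (by exact hb)]
  obtain ⟨i, hi, hmax⟩ := Finset.exists_mem_eq_sup (Finset.range (b.1.length + 1))
    (Finset.nonempty_range_iff.2 (by omega)) fun i => (ψ (endPt (b.1.take i))).natAbs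
  have hi' : i ≤ b.1.length := Nat.le_of_lt_succ (Finset.mem_range.1 hi)
  rw [lext, hmax]
  set v := ψ (endPt (b.1.take i)) with hv
  have hge : ∀ φ : (Fin d → ℤ) →+ ℤ, φ (endPt (b.1.take i)) = v.natAbs →
      q b * (v.natAbs : ℝ≥0∞) ≤ ∑' n, G φ n b := by
    intro φ hφv
    calc q b * (v.natAbs : ℝ≥0∞) = ∑ _n ∈ Finset.range v.natAbs, q b := by
          simp [mul_comm]
      _ = ∑ n ∈ Finset.range v.natAbs, G φ n b := by
          refine Finset.sum_congr rfl fun n hn => ?_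
          have := Finset.mem_range.1 hn
          simp only [G]
          rw [if_pos ⟨hb, i, hi', by omega⟩]
      _ ≤ _ := ENNReal.sum_le_tsum _
  rcases le_total 0 v with h | h
  · exact (hge ψ (Int.natAbs_of_nonneg h).symm).trans le_self_add
  · exact (hge (-ψ) (by simp only [AddMonoidHom.neg_apply, ← hv]; omega)).trans le_add_self

end Vale.Agent.P147.Re
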