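import Vale.Agent.P147.Real.Trigger
import Vale.Agent.P147.Real.Record
import Vale.Agent.P147.Dir.Extent

/-!
The lateral extent of a block has finite mean.
-/

noncomputable section

namespace Vale.Agent.P147.Re

open MeasureTheory ProbabilityTheory Filter
open scoped ENNReal Topology

set_option linter.unusedSectionVars false

variable {d : ℕ} {μ : Measure (Row d)} {ℓ : Fin d → ℝ} {e : Dir d} {ψ : (Fin d → ℤ) →+ ℤ}
  {sl h : ℕ}

lemma seqLaw_eval_zero (p : PMF (Blk ℓ)) (S : Set (Blk ℓ)) :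
    seqLaw p {η | η 0 ∈ S} = ∑' b, S.indicator (fun b => p b) b := by
  classical
  have h1 : {η : ℕ → Blk ℓ | η 0 ∈ S} = {η | head 1 η ∈ {g | g 0 ∈ S}} := rfl
  rw [h1, seqLaw_head_mem, ← (Equiv.funUnique (Fin 1) (Blk ℓ)).symm.tsum_eq]
  exact tsum_congr fun b => by by_cases hb : b ∈ S <;> simp [hb, Set.indicator_apply]

lemma lext_neg (b : Blk ℓ) : lext (-ψ) b = lext ψ b := by simp [lext]

lemma one_le_blkLev (b : Blk ℓ) : 1 ≤ blkLev b := by
  have := four_le_blkLev b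
  omega

lemma flo_le_psum (ω : ℕ → Blk ℓ) (I : ℕ) : ⌊lsum ω I⌋₊ ≤ psum blkLev ω I := by
  refine Nat.floor_le_of_le ?_
  simp only [psum, lsum, Nat.cast_sum]
  exact Finset.sum_le_sum fun t _ => lev_le_blkLev _

variable [IsProbabilityMeasure μ]

/-- An event on `Dp` forced by the first `k` blocks. -/
theorem Dp_inter_ge (hel : IsElliptic μ) (hN : Nrm ℓ e) (hp : annealed μ (Dp ℓ) ≠ 0) {k : ℕ} {E : Set (Walk d)}
    {S : Set (ℕ → Blk ℓ)}
    (hdep : ∀ ω η, head k ω = head k η → ω ∈ S → η ∈ S)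
    (hS : ∀ ω s, ω ∈ S → s ∈ blkEvent (head k ω) → s ∈ E) :
    annealed μ (Dp ℓ) * seqLaw (blkPMF hel hN hp) S ≤ annealed μ (Dp ℓ ∩ E) := by
  classical
  set T : Set (Fin k → Blk ℓ) := head k '' S
  have hST : S = {ω | head k ω ∈ T} := by
    ext ω
    exact ⟨fun h => ⟨ω, h, rfl⟩, fun ⟨η, hη, he⟩ => hdep η ω he hη⟩
  rw [hST, seqLaw_head_mem, ← ENNReal.tsum_mul_left]
  calc _ = ∑' bs : T, annealed μ (blkEvent bs.1) := by
        rw [tsum_subtype T (fun bs => annealed μ (blkEvent bs))]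
        refine tsum_congr fun bs => ?_
        by_cases hb : bs ∈ T
        · rw [Set.indicator_of_mem hb, Set.indicator_of_mem hb, annealed_blkEvent, mul_comm]
          rfl
        · simp [Set.indicator_of_notMem hb]
    _ = annealed μ (⋃ bs : T, blkEvent bs.1) := by
        rw [measure_iUnion (fun u v hne => blkEvent_disjoint k fun hc => hne (Subtype.ext hc))
          fun bs => measurableSet_blkEvent _]
    _ ≤ _ := by
        refine measure_mono (Set.iUnion_subset fun ⟨bs, ω, hω, he⟩ s hs => ?_)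
        exact ⟨blkEvent_subset_Dp _ hs, hS ω s hω (he ▸ hs)⟩

lemma no_regen_block {ω : ℕ → Blk ℓ} {s : Walk d} {k : ℕ} (hs : s ∈ blkEvent (head k ω)) {J : ℕ}
    (hJ : J < k) {i : ℕ} (h1 : (cat (head J ω)).length < i)
    (h2 : i < (cat (head (J + 1) ω)).length) : ¬RegenTime ℓ s i := by
  intro hr
  obtain ⟨m, rfl⟩ := Nat.exists_eq_add_of_le h1.le
  rw [head_succ_cat, List.length_append] at h2
  have hm : m < (ω J).1.length := by omega
  have hp : ∀ j ≤ (ω J).1.length, lev ℓ (pos s ((cat (head J ω)).length + j)) =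
      lev ℓ (endPt (cat (head J ω))) + Lt ℓ (ω J).1 j := fun j hj => by
    rw [pos_block hs.1 hJ hj, map_add, Lt]
  refine (ω J).2.noRegen m (by omega) hm ⟨fun j hj => ?_, fun j hj hj' => ?_⟩
  · have := hr.1 ((cat (head J ω)).length + j) (by omega)
    rw [hp j (by omega), hp m hm.le] at this
    linarith
  · have := hr.2 ((cat (head J ω)).length + j) (by omega)
    rw [hp j hj', hp m hm.le] at this
    linarith

/-- A block of height at most `h` with tilted extent beyond `k` advances. -/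
def GiantBlk (ℓ : Fin d → ℝ) (ψ : (Fin d → ℤ) →+ ℤ) (sl h Lam k : ℕ) : Set (Blk ℓ) :=
  {b | blkLev b ≤ h ∧ ∃ i ≤ b.1.length,
    ((Lam : ℝ) + k * adv sl) * blkLev b < wt ℓ ψ sl (endPt (b.1.take i))}

/-- Size-biased mass of giant blocks. -/
def giantMass {μ : Measure (Row d)} [IsProbabilityMeasure μ] (hel : IsElliptic μ) (hN : Nrm ℓ e) (hp : annealed μ (Dp ℓ) ≠ 0)
    (ψ : (Fin d → ℤ) →+ ℤ) (sl h Lam k : ℕ) : ℝ≥0∞ :=
  ∑' b, (GiantBlk ℓ ψ sl h Lam k).indicator
    (fun b => blkPMF hel hN hp b * (blkLev b : ℝ≥0∞)) b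

/-- Wald bound: giant blocks are seen around a fixed level. -/
theorem giantMass_le (hel : IsElliptic μ) (hN : Nrm ℓ e) (hp : annealed μ (Dp ℓ) ≠ 0) {L : ℕ} (hL1 : 1 ≤ L)
    (hL : ∑' b, blkPMF hel hN hp b * (blkLev b : ℝ≥0∞) ≤ L) (Lam k : ℕ) :
    annealed μ (Dp ℓ) * giantMass hel hN hp ψ sl h Lam k ≤
      4 * (2 * L + 1 : ℕ) * giantSup μ ℓ ψ sl h Lam k := by
  classical
  set p := annealed μ (Dp ℓ)
  set q := blkPMF hel hN hp
  set P := seqLaw q
  set G := GiantBlk ℓ ψ sl h Lam k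
  set Z := giantMass hel hN hp ψ sl h Lam k
  set Φ := giantSup μ ℓ ψ sl h Lam k
  set M := h + 1 with hM
  set T := 2 * L * M with hT
  set X := T + h
  let K : ℕ → ℕ → Set (ℕ → Blk ℓ) := fun I e => {ω | ⌊lsum ω I⌋₊ = e}
  let B : ℕ → ℕ → Set (Blk ℓ) := fun c e => {b | b ∈ G ∧ e + 1 ≤ c ∧ c < e + blkLev b}
  let A : ℕ → ℕ → ℕ → Set (ℕ → Blk ℓ) := fun c I e =>
    K I e ∩ (fun ω i => ω (I + i)) ⁻¹' {η | η 0 ∈ B c e}
  have hKdep : ∀ I e, ∀ ω η, head I ω = head I η → ω ∈ K I e → η ∈ K I e := by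
    intro I e ω η hh hω
    simp only [K, Set.mem_ofPred_eq] at hω ⊢
    rw [← lsum_head] at hω ⊢
    rw [← hh]; exact hω
  have hA : ∀ c I e, P (A c I e) = P (K I e) * ∑' b, (B c e).indicator (fun b => q b) b := by
    intro c I e
    have hm : MeasurableSet {η : ℕ → Blk ℓ | η 0 ∈ B c e} :=
      measurable_pi_apply 0 (Set.to_countable (B c e)).measurableSet
    rw [← seqLaw_eval_zero q (B c e)]
    exact seqLaw_inter_shift q I (hKdep I e) hm
  have hAm : ∀ c I e, MeasurableSet (A c I e) := fun c I e =>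
    (measurableSet_of_head I (hKdep I e)).inter
      ((by fun_prop : Measurable fun (ω : ℕ → Blk ℓ) i => ω (I + i))
        (measurable_pi_apply 0 (Set.to_countable (B c e)).measurableSet))
  set Q := Finset.range M ×ˢ Finset.range T
  -- one level
  have hc : ∀ c, p * ∑ x ∈ Q, P (A c x.1 x.2) ≤ Φ := by
    intro c
    rw [← measure_biUnion_finset ?_ fun x _ => hAm c x.1 x.2]
    · refine (Dp_inter_ge hel hN hp (k := M) (E := Giant ℓ ψ sl h Lam k ((c : NNReal) : ℝ)) ?_ ?_).trans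
        (le_iSup (fun c : NNReal => annealed μ (Dp ℓ ∩ Giant ℓ ψ sl h Lam k (c : ℝ))) (c : NNReal))
      · intro ω η hh hω
        simp only [Set.mem_iUnion, Q, Finset.mem_product, Finset.mem_range] at hω ⊢
        obtain ⟨⟨I, e⟩, ⟨hI, he⟩, h1, h2⟩ := hω
        refine ⟨⟨I, e⟩, ⟨hI, he⟩, hKdep I e ω η ?_ h1, ?_⟩
        · funext i; exact congrFun hh ⟨i, i.2.trans hI⟩
        · simp only [Set.mem_preimage, Set.mem_ofPred_eq, add_zero] at h2 ⊢
          rw [show η I = ω I from (congrFun hh ⟨I, hI⟩).symm]; exact h2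
      · intro ω s hω hs
        simp only [Set.mem_iUnion, Q, Finset.mem_product, Finset.mem_range] at hω
        obtain ⟨⟨I, e⟩, ⟨hI, he⟩, h1, h2⟩ := hω
        simp only [Set.mem_preimage, Set.mem_ofPred_eq, add_zero, B, G, GiantBlk] at h2
        obtain ⟨⟨hH, i, hi, hbig⟩, hec, hce⟩ := h2
        simp only [K, Set.mem_ofPred_eq] at h1
        dsimp only at hI he h1 hH hi hbig hec hce ⊢
        have hlen : (cat (head (I + 1) ω)).length =
            (cat (head I ω)).length + (ω I).1.length := by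
          rw [head_succ_cat, List.length_append]
        have e1 : pos s (cat (head I ω)).length = endPt (cat (head I ω)) := by
          simpa using pos_block hs.1 hI (Nat.zero_le (ω I).1.length)
        have e2 := pos_block hs.1 hI (le_refl (ω I).1.length)
        rw [← hlen, List.take_length] at e2
        have hlo : lsum ω I < (e : ℝ) + 1 := by rw [← h1]; exact Nat.lt_floor_add_one _
        have hhi : (e : ℝ) ≤ lsum ω I := by rw [← h1]; exact Nat.floor_le (lsum_nonneg ω I)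
        have hc1 : (e : ℝ) + 1 ≤ c := by exact_mod_cast hec
        have hc2 : (c : ℝ) + 1 ≤ (e : ℝ) + blkLev (ω I) := by exact_mod_cast hce
        have hc3 := blkLev_lt (ω I)
        refine ⟨(cat (head I ω)).length, (cat (head (I + 1) ω)).length,
          (cat (head I ω)).length + i,
          ⟨regen_start hs hI.le, regen_start hs hI, ?_, fun j hj hj' => no_regen_block hs hI hj hj',
            ?_, ?_, ?_⟩, by omega, by omega, ?_⟩
        · have := (ω I).2.length_pos; omega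
        · rw [e1, lsum_head, NNReal.coe_natCast]; linarith
        · rw [e2, map_add, lsum_head, NNReal.coe_natCast]; linarith
        · rw [e1, e2, map_add]
          have h4 : (blkLev (ω I) : ℝ) ≤ h := by exact_mod_cast hH
          linarith [lev_le_blkLev (ω I)]
        · rw [pos_block hs.1 hI hi, e1, e2, map_add (lev ℓ), map_add (wt ℓ ψ sl)]
          simpa [blkLev] using hbig
    · intro x hx y hy hne
      refine Set.disjoint_left.2 fun ω hω hω' => hne ?_
      obtain ⟨h1, h2⟩ := hω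
      obtain ⟨h1', h2'⟩ := hω'
      simp only [Set.mem_preimage, Set.mem_ofPred_eq, add_zero, B, K] at h1 h2 h1' h2'
      have a1 : lsum ω x.1 ≤ c := by
        have h0 := Nat.lt_floor_add_one (lsum ω x.1)
        have h3 : ((⌊lsum ω x.1⌋₊ : ℕ) : ℝ) + 1 ≤ c := by rw [h1]; exact_mod_cast h2.2.1
        linarith
      have a2 : lsum ω y.1 ≤ c := by
        have h0 := Nat.lt_floor_add_one (lsum ω y.1)
        have h3 : ((⌊lsum ω y.1⌋₊ : ℕ) : ℝ) + 1 ≤ c := by rw [h1']; exact_mod_cast h2'.2.1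
        linarith
      have b1 : (c : ℝ) < lsum ω (x.1 + 1) := by
        rw [lsum_succ]
        have h0 : ((⌊lsum ω x.1⌋₊ : ℕ) : ℝ) ≤ lsum ω x.1 := Nat.floor_le (lsum_nonneg ω _)
        have h3 : (c : ℝ) + 1 ≤ ((⌊lsum ω x.1⌋₊ : ℕ) : ℝ) + blkLev (ω x.1) := by
          rw [h1]; exact_mod_cast h2.2.2
        linarith [blkLev_lt (ω x.1)]
      have b2 : (c : ℝ) < lsum ω (y.1 + 1) := by
        rw [lsum_succ]
        have h0 : ((⌊lsum ω y.1⌋₊ : ℕ) : ℝ) ≤ lsum ω y.1 := Nat.floor_le (lsum_nonneg ω _)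
        have h3 : (c : ℝ) + 1 ≤ ((⌊lsum ω y.1⌋₊ : ℕ) : ℝ) + blkLev (ω y.1) := by
          rw [h1']; exact_mod_cast h2'.2.2
        linarith [blkLev_lt (ω y.1)]
      have hxy : x.1 = y.1 := by
        rcases lt_trichotomy x.1 y.1 with hl | hl | hl
        · have h5 := lsum_gap ω (Nat.succ_le_of_lt hl)
          have h6 : ((x.1.succ : ℕ) : ℝ) ≤ y.1 := Nat.cast_le.2 hl
          rw [Nat.succ_eq_add_one] at h5 h6
          linarith
        · exact hl
        · have h5 := lsum_gap ω (Nat.succ_le_of_lt hl)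
          have h6 : ((y.1.succ : ℕ) : ℝ) ≤ x.1 := Nat.cast_le.2 hl
          rw [Nat.succ_eq_add_one] at h5 h6
          linarith
      exact Prod.ext hxy (by rw [← h1, ← h1', hxy])
  -- summing over the levels
  have hsum : ∀ e < T, Z ≤ 2 * ∑ c ∈ Finset.range X, ∑' b, (B c e).indicator (fun b => q b) b := by
    intro e he
    rw [← Summable.tsum_finsetSum fun _ _ => ENNReal.summable, ← ENNReal.tsum_mul_left]
    refine ENNReal.tsum_le_tsum fun b => ?_
    by_cases hb : b ∈ G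
    · rw [Set.indicator_of_mem hb]
      have hcnt : ∀ c, (B c e).indicator (fun b => q b) b =
          if c ∈ Finset.Ico (e + 1) (e + blkLev b) then q b else 0 := fun c => by
        simp only [Set.indicator_apply, B, Set.mem_ofPred_eq, hb, true_and, Finset.mem_Ico]
      have hH := hb.1
      rw [Finset.sum_congr rfl fun c _ => hcnt c, Finset.sum_ite_mem,
        Finset.inter_eq_right.2 fun c hc => Finset.mem_range.2 (by
          have := Finset.mem_Ico.1 hc; omega),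
        Finset.sum_const, Nat.card_Ico, nsmul_eq_mul, mul_comm (q b)]
      rw [← mul_assoc]
      refine mul_le_mul' ?_ le_rfl
      have h4 := four_le_blkLev b
      calc (blkLev b : ℝ≥0∞) ≤ ((2 * (e + blkLev b - (e + 1)) : ℕ) : ℝ≥0∞) :=
            Nat.cast_le.2 (by omega)
        _ = _ := by push_cast; ring
    · rw [Set.indicator_of_notMem hb]
      exact zero_le
  -- the partial sums below `T`
  have hlow : ∀ I, P {ω | ⌊lsum ω I⌋₊ < T} = ∑ e ∈ Finset.range T, P (K I e) := by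
    intro I
    rw [← measure_biUnion_finset ?_ fun e _ => measurableSet_of_head I (hKdep I e)]
    · congr 1; ext ω; simp [K]
    · intro e _ e' _ hne
      exact Set.disjoint_left.2 fun ω h h' => hne (h.symm.trans h')
  have hhigh : ∀ I < M, (2 : ℝ≥0∞) * P {ω | T ≤ ⌊lsum ω I⌋₊} ≤ 1 := by
    intro I hI
    refine le_trans (mul_le_mul' le_rfl (measure_mono
      (t := {ω : ℕ → Blk ℓ | T ≤ psum blkLev ω I}) fun ω hω => le_trans hω (flo_le_psum ω I))) ?_
    have h1 := mul_meas_ge_le_lintegral (μ := P)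
      ((measurable_of_countable fun n : ℕ => (n : ℝ≥0∞)).comp (measurable_psum blkLev I))
      ((T : ℕ) : ℝ≥0∞)
    simp only [Function.comp, Nat.cast_le] at h1
    rw [lintegral_psum] at h1
    have hLM : ((L * M : ℕ) : ℝ≥0∞) ≠ 0 := by
      simp only [Nat.cast_ne_zero]; positivity
    rw [← ENNReal.mul_le_mul_iff_right hLM (ENNReal.natCast_ne_top _)]
    calc ((L * M : ℕ) : ℝ≥0∞) * (2 * P {ω | T ≤ psum blkLev ω I})
        = (T : ℝ≥0∞) * P {ω | T ≤ psum blkLev ω I} := by rw [hT]; push_cast; ring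
      _ ≤ (I : ℝ≥0∞) * ∑' b, q b * (blkLev b : ℝ≥0∞) := h1
      _ ≤ (M : ℝ≥0∞) * L := mul_le_mul' (Nat.cast_le.2 hI.le) hL
      _ = _ := by push_cast; ring
  have hhalf : (M : ℝ≥0∞) ≤ 2 * ∑ I ∈ Finset.range M, P {ω | ⌊lsum ω I⌋₊ < T} := by
    rw [Finset.mul_sum]
    calc (M : ℝ≥0∞) = ∑ _I ∈ Finset.range M, (1 : ℝ≥0∞) := by simp
      _ ≤ _ := Finset.sum_le_sum fun I hI => by
        have h1 := hhigh I (Finset.mem_range.1 hI)
        set u := P {ω | ⌊lsum ω I⌋₊ < T}
        set v := P {ω | T ≤ ⌊lsum ω I⌋₊}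
        have h2 : 1 ≤ u + v := by
          rw [← measure_univ (μ := P)]
          refine le_trans (measure_mono fun ω _ => ?_) (measure_union_le _ _)
          rcases lt_or_ge ⌊lsum ω I⌋₊ T with h | h
          · exact Or.inl h
          · exact Or.inr h
        have h3 : (1 : ℝ≥0∞) + 1 ≤ 2 * u + 1 := by
          calc (1 : ℝ≥0∞) + 1 = 2 * 1 := by ring
            _ ≤ 2 * (u + v) := mul_le_mul' le_rfl h2
            _ = 2 * u + 2 * v := mul_add _ _ _
            _ ≤ _ := add_le_add le_rfl h1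
        exact (ENNReal.add_le_add_iff_right ENNReal.one_ne_top).1 h3
  have key : p * ((∑ I ∈ Finset.range M, P {ω | ⌊lsum ω I⌋₊ < T}) * Z) ≤ 2 * (X * Φ) := by
    calc _ ≤ 2 * ∑ c ∈ Finset.range X, p * ∑ x ∈ Q, P (A c x.1 x.2) := by
          rw [← Finset.mul_sum, Finset.sum_comm, Finset.sum_product, Finset.sum_mul,
            ← mul_assoc, mul_comm 2 p, mul_assoc, Finset.mul_sum (a := (2 : ℝ≥0∞))]
          refine mul_le_mul' le_rfl (Finset.sum_le_sum fun I _ => ?_)
          rw [hlow, Finset.sum_mul, Finset.mul_sum]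
          refine Finset.sum_le_sum fun e he => ?_
          simp only [hA]
          rw [← Finset.mul_sum, mul_left_comm]
          exact mul_le_mul' le_rfl (hsum e (Finset.mem_range.1 he))
      _ ≤ 2 * ∑ _c ∈ Finset.range X, Φ :=
          mul_le_mul' le_rfl (Finset.sum_le_sum fun c _ => hc c)
      _ = _ := by simp
  rw [← ENNReal.mul_le_mul_iff_right (a := (M : ℝ≥0∞)) (by simp [hM]) (ENNReal.natCast_ne_top _)]
  calc (M : ℝ≥0∞) * (p * Z)
      ≤ 2 * (∑ I ∈ Finset.range M, P {ω | ⌊lsum ω I⌋₊ < T}) * (p * Z) :=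
        mul_le_mul' hhalf le_rfl
    _ = 2 * (p * ((∑ I ∈ Finset.range M, P {ω | ⌊lsum ω I⌋₊ < T}) * Z)) := by ring
    _ ≤ 2 * (2 * ((((2 * L + 1) * M : ℕ) : ℝ≥0∞) * Φ)) := by
        refine mul_le_mul' le_rfl (key.trans (mul_le_mul' le_rfl
          (mul_le_mul' (Nat.cast_le.2 ?_) le_rfl)))
        simp only [X, hT, hM]; ring_nf; omega
    _ = _ := by push_cast; ring

/-- Mean truncated extent. -/
def aExt {μ : Measure (Row d)} [IsProbabilityMeasure μ] (hel : IsElliptic μ) (hN : Nrm ℓ e) (hp : annealed μ (Dp ℓ) ≠ 0)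
    (ψ : (Fin d → ℤ) →+ ℤ) (sl h : ℕ) : ℝ≥0∞ :=
  ∑' b, blkPMF hel hN hp b * ((min (lext ψ b) (sl * (h + 1) + 1) : ℕ) : ℝ≥0∞)

lemma aExt_neg (hel : IsElliptic μ) (hN : Nrm ℓ e) (hp : annealed μ (Dp ℓ) ≠ 0) : aExt hel hN hp (-ψ) sl h = aExt hel hN hp ψ sl h := by
  simp [aExt, lext_neg]

/-- Tail of the mean level gain. -/
def levTail {μ : Measure (Row d)} [IsProbabilityMeasure μ] (hel : IsElliptic μ) (hN : Nrm ℓ e) (hp : annealed μ (Dp ℓ) ≠ 0) (H : ℕ) :
    ℝ≥0∞ :=
  ∑' b, {b : Blk ℓ | H < blkLev b}.indicator (fun b => blkPMF hel hN hp b * (blkLev b : ℝ≥0∞)) b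

lemma exists_levTail_le (hel : IsElliptic μ) (hN : Nrm ℓ e) (hp : annealed μ (Dp ℓ) ≠ 0) {δ : ℝ≥0∞} (hδ : δ ≠ 0) :
    ∃ H : ℕ, levTail hel hN hp H ≤ δ := by
  classical
  have h1 := ENNReal.tendsto_tsum_compl_atTop_zero (mean_blkLev hel hN hp)
  obtain ⟨s, hs⟩ := (h1.eventually (eventually_le_nhds (pos_iff_ne_zero.2 hδ))).exists
  refine ⟨s.sup blkLev, le_trans ?_ hs⟩
  show _ ≤ ∑' b : ((↑s)ᶜ : Set (Blk ℓ)), blkPMF hel hN hp b.1 * (blkLev b.1 : ℝ≥0∞)
  rw [tsum_subtype ((↑s)ᶜ : Set (Blk ℓ)) fun b => blkPMF hel hN hp b * (blkLev b : ℝ≥0∞)]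
  refine ENNReal.tsum_le_tsum fun b =>
    Set.indicator_le_indicator_of_subset (fun b hb hmem => ?_) (fun _ => zero_le) b
  exact absurd (Finset.le_sup (f := blkLev) (Finset.mem_coe.1 hmem)) (not_le.2 hb)

/-- Geometric decay of the probability of giant blocks. -/
theorem giantSup_le (hel : IsElliptic μ) (hN : Nrm ℓ e) (hψ : ∀ e, |ψ (dirVec e)| ≤ 1)
    (hsl : 1 ≤ sl) (hp : annealed μ (Dp ℓ) ≠ 0)
    {g β : ℝ≥0∞} (hg : g ≤ annealed μ (CGood ℓ ψ sl h)) (hg0 : g ≠ 0) {lam : ℕ}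
    (hβ : seqLaw (blkPMF hel hN hp) (HeavySeq (bvar ψ sl (4 * lam * h + 1)) lam (h + 1)) *
        (1 + 2 * ∑' b, blkPMF hel hN hp b * (blkLev b : ℝ≥0∞)) +
      2 * ∑' b, {b : Blk ℓ | lam < bvar ψ sl (4 * lam * h + 1) b}.indicator
        (fun b => blkPMF hel hN hp b * (blkLev b : ℝ≥0∞)) b ≤ β)
    (hsmall : β ≤ g / 2 * g) (k : ℕ) :
    giantSup μ ℓ ψ sl h (4 * lam) k ≤ annealed μ (Dp ℓ) * (1 - g) ^ k := by
  set p := annealed μ (Dp ℓ)
  set Φ := giantSup μ ℓ ψ sl h (4 * lam) k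
  have hg1 : g ≤ 1 := hg.trans prob_le_one
  have hgt : g ≠ ⊤ := ne_top_of_le_ne_top ENNReal.one_ne_top hg1
  have hpt : p ≠ ⊤ := measure_ne_top _ _
  have hΦ : Φ ≤ 1 := iSup_le fun c => prob_le_one
  have hgeo : ∑ j ∈ Finset.range k, (1 - g) ^ j ≤ g⁻¹ := by
    refine (ENNReal.sum_le_tsum _).trans ?_
    rw [ENNReal.tsum_geometric, ENNReal.sub_sub_cancel ENNReal.one_ne_top hg1]
  have hT : ∀ c : NNReal,
      annealed μ (Dp ℓ ∩ {s | ∃ t, Trig ℓ ψ sl h (4 * lam) (c : ℝ) (pre s t)}) ≤ p * β := by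
    intro c
    refine (trig_le hel hN hp c.coe_nonneg).trans
      (mul_le_mul' le_rfl ((trigBlocks_le _ _ h (c : ℝ)).trans (le_trans ?_ hβ)))
    rw [mul_comm]
  have h1 : g * Φ ≤ p * (g / 2 * g) * (1 - g) ^ k + g / 2 * Φ := by
    rw [show g * Φ = ⨆ c : NNReal, g * annealed μ (Dp ℓ ∩ Giant ℓ ψ sl h (4 * lam) k (c : ℝ)) from
      ENNReal.mul_iSup ..]
    refine iSup_le fun c => (giant_le hN hψ hsl hp hg (c : ℝ)).trans ?_
    refine (mul_le_mul' (hT c) (add_le_add le_rfl (mul_le_mul' hgeo le_rfl))).trans ?_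
    rw [mul_add]
    refine add_le_add (mul_le_mul' (mul_le_mul' le_rfl hsmall) le_rfl) ?_
    calc p * β * (g⁻¹ * (Φ / p)) = β * g⁻¹ * (p * (Φ / p)) := by ring
      _ ≤ g / 2 * g * g⁻¹ * Φ := by
          rw [ENNReal.mul_div_cancel hp hpt]
          exact mul_le_mul' (mul_le_mul' hsmall le_rfl) le_rfl
      _ = _ := by rw [mul_assoc (g / 2), ENNReal.mul_inv_cancel hg0 hgt, mul_one]
  nth_rw 1 [← ENNReal.add_halves g] at h1
  rw [add_mul, ENNReal.add_le_add_iff_right
    (ENNReal.mul_ne_top (ENNReal.div_ne_top hgt two_ne_zero)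
      (ne_top_of_le_ne_top ENNReal.one_ne_top hΦ))] at h1
  have h2 : g / 2 * Φ ≤ g / 2 * (p * (1 - g) ^ k) := by
    refine h1.trans ?_
    calc p * (g / 2 * g) * (1 - g) ^ k = g / 2 * (p * (1 - g) ^ k) * g := by ring
      _ ≤ _ := mul_le_of_le_one_right' hg1
  exact (ENNReal.mul_le_mul_iff_right (ENNReal.div_ne_zero.2 ⟨hg0, ENNReal.ofNat_ne_top⟩)
    (ENNReal.div_ne_top hgt two_ne_zero)).1 h2

/-- The trigger probability is small when the truncated extent is small. -/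
theorem beta_le (hel : IsElliptic μ) (hN : Nrm ℓ e) (hp : annealed μ (Dp ℓ) ≠ 0) (hsl : 1 ≤ sl) {R L H1 : ℕ} (hR : 1 ≤ R)
    (hL : ∑' b, blkPMF hel hN hp b * (blkLev b : ℝ≥0∞) ≤ L) {ε : ℝ≥0∞}
    (ha : aExt hel hN hp ψ sl h ≤ sl * ε) :
    seqLaw (blkPMF hel hN hp) (HeavySeq (bvar ψ sl (4 * (R * sl) * h + 1)) (R * sl) (h + 1)) *
        (1 + 2 * ∑' b, blkPMF hel hN hp b * (blkLev b : ℝ≥0∞)) +
      2 * ∑' b, {b : Blk ℓ | R * sl < bvar ψ sl (4 * (R * sl) * h + 1) b}.indicator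
        (fun b => blkPMF hel hN hp b * (blkLev b : ℝ≥0∞)) b ≤
      (1 + 2 * L + 2 * H1) * (10 * ε + 2 * L / R) + 2 * levTail hel hN hp H1 := by
  classical
  set q := blkPMF hel hN hp
  set f : Blk ℓ → ℕ := bvar ψ sl (4 * (R * sl) * h + 1) with hf
  set ξ : ℝ≥0∞ := 10 * ε + 2 * L / R
  set N : ℕ := R * sl with hNd
  have hN0 : (N : ℝ≥0∞) ≠ 0 := by
    simp only [Nat.cast_ne_zero, hNd]; positivity
  have hNt : (N : ℝ≥0∞) ≠ ⊤ := ENNReal.natCast_ne_top _
  have hEf : ∑' b, q b * (f b : ℝ≥0∞) ≤ N * ξ := by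
    have hpt : ∀ b, f b ≤ 2 * (4 * R + 1) * min (lext ψ b) (sl * (h + 1) + 1) +
        2 * sl * blkLev b := by
      intro b
      simp only [hf, bvar]
      refine add_le_add ?_ le_rfl
      rcases le_total (lext ψ b) (sl * (h + 1) + 1) with hb | hb
      · rw [min_eq_left hb]
        calc _ ≤ 2 * lext ψ b := min_le_left _ _
          _ ≤ _ := Nat.mul_le_mul_right _ (Nat.le_mul_of_pos_right 2 (by omega))
      · rw [min_eq_right hb]
        refine (min_le_right _ _).trans ?_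
        have e : 2 * (4 * R + 1) * (sl * (h + 1) + 1) =
            4 * N * h + 1 + (4 * N * h + 8 * N + 8 * R + 2 * sl * (h + 1) + 1) := by
          rw [hNd]; ring
        omega
    have h1 : ∑' b, q b * (f b : ℝ≥0∞) ≤
        (2 * (4 * R + 1) : ℕ) * aExt hel hN hp ψ sl h +
          (2 * sl : ℕ) * ∑' b, q b * (blkLev b : ℝ≥0∞) := by
      rw [aExt, ← ENNReal.tsum_mul_left, ← ENNReal.tsum_mul_left, ← ENNReal.tsum_add]
      refine ENNReal.tsum_le_tsum fun b => ?_
      refine (mul_le_mul' le_rfl (Nat.cast_le.2 (hpt b))).trans (le_of_eq ?_)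
      push_cast; ring
    refine h1.trans ((add_le_add (mul_le_mul' le_rfl ha) (mul_le_mul' le_rfl hL)).trans ?_)
    refine le_trans (add_le_add ?_ (le_of_eq ?_)) (le_of_eq (mul_add _ _ _).symm)
    · calc ((2 * (4 * R + 1) : ℕ) : ℝ≥0∞) * (sl * ε) ≤ ((10 * R : ℕ) : ℝ≥0∞) * (sl * ε) :=
            mul_le_mul' (Nat.cast_le.2 (by omega)) le_rfl
        _ = _ := by rw [hNd]; push_cast; ring
    · calc ((2 * sl : ℕ) : ℝ≥0∞) * L = (sl : ℝ≥0∞) * (2 * L) := by push_cast; ring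
        _ = (sl : ℝ≥0∞) * ((R : ℝ≥0∞) * (2 * L / R)) := by
            rw [ENNReal.mul_div_cancel (Nat.cast_ne_zero.2 (by omega)) (ENNReal.natCast_ne_top R)]
        _ = _ := by rw [hNd]; push_cast; ring
  have hQ : seqLaw q (HeavySeq f N (h + 1)) ≤ ξ :=
    (ENNReal.mul_le_mul_iff_right hN0 hNt).1 ((heavySeq_le q f N (h + 1)).trans hEf)
  have hM : ∑' b, {b : Blk ℓ | N < f b}.indicator (fun b => q b * (blkLev b : ℝ≥0∞)) b ≤
      levTail hel hN hp H1 + H1 * ξ := by
    rw [← ENNReal.mul_le_mul_iff_right hN0 hNt, mul_add, levTail, ← ENNReal.tsum_mul_left,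
      ← ENNReal.tsum_mul_left]
    refine le_trans ?_ (add_le_add le_rfl (le_of_le_of_eq (mul_le_mul' (le_refl (H1 : ℝ≥0∞)) hEf)
      (by ring)))
    rw [← ENNReal.tsum_mul_left, ← ENNReal.tsum_add]
    refine ENNReal.tsum_le_tsum fun b => ?_
    by_cases hb : N < f b
    · rw [Set.indicator_of_mem (show b ∈ {b : Blk ℓ | N < f b} from hb)]
      rcases lt_or_ge H1 (blkLev b) with hH | hH
      · rw [Set.indicator_of_mem (show b ∈ {b : Blk ℓ | H1 < blkLev b} from hH)]
        exact le_self_add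
      · refine le_trans ?_ le_add_self
        calc (N : ℝ≥0∞) * (q b * blkLev b) = q b * ((N * blkLev b : ℕ) : ℝ≥0∞) := by
              push_cast; ring
          _ ≤ q b * ((f b * H1 : ℕ) : ℝ≥0∞) :=
              mul_le_mul' le_rfl (Nat.cast_le.2 (Nat.mul_le_mul hb.le hH))
          _ = _ := by push_cast; ring
    · rw [Set.indicator_of_notMem (show b ∉ {b : Blk ℓ | N < f b} from hb), mul_zero]
      exact zero_le
  calc _ ≤ ξ * (1 + 2 * L) + 2 * (levTail hel hN hp H1 + H1 * ξ) :=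
        add_le_add (mul_le_mul' hQ (add_le_add le_rfl (mul_le_mul' le_rfl hL)))
          (mul_le_mul' le_rfl hM)
    _ = _ := by ring

open scoped Classical in
/-- Pointwise bound of the truncated extent through giant blocks. -/
lemma ext_split (hsl : 1 ≤ sl) (h' R K H0 : ℕ) (b : Blk ℓ) :
    ((min (lext ψ b) (sl * (h' + 1) + 1) : ℕ) : ℝ≥0∞) ≤
      (if blkLev b ≤ H0 then (lext ψ b : ℝ≥0∞) else 0) +
      (if H0 < blkLev b then
        (((3 + 4 * R) * sl + K * adv sl : ℕ) : ℝ≥0∞) * blkLev b else 0) +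
      (adv sl : ℝ≥0∞) *
        ((∑' k, (GiantBlk ℓ ψ sl (h' - 1) (4 * (R * sl)) (K + k)).indicator
            (fun b => (blkLev b : ℝ≥0∞)) b) +
         ∑' k, (GiantBlk ℓ (-ψ) sl (h' - 1) (4 * (R * sl)) (K + k)).indicator
            (fun b => (blkLev b : ℝ≥0∞)) b) := by
  by_cases hH0 : blkLev b ≤ H0
  · rw [if_pos hH0]
    exact le_add_right (le_add_right (Nat.cast_le.2 (min_le_left _ _)))
  rw [if_neg hH0, if_pos (by omega : H0 < blkLev b), zero_add]
  have hH1 := one_le_blkLev b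
  set H := blkLev b
  set C : ℕ := (3 + 4 * R) * sl + K * adv sl
  rcases lt_or_ge (h' - 1) H with hh | hh
  · refine le_add_right ?_
    rw [← Nat.cast_mul]
    refine Nat.cast_le.2 ((min_le_right _ _).trans ?_)
    calc sl * (h' + 1) + 1 ≤ 3 * sl * H := by
          have h1 : sl * (h' + 1) ≤ sl * (H + 1) := Nat.mul_le_mul_left _ (by omega)
          have h2 : sl * 1 ≤ sl * H := Nat.mul_le_mul_left _ hH1
          have h3 : sl * (H + 1) = sl * H + sl := by ring
          rw [mul_assoc]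
          omega
      _ ≤ _ := Nat.mul_le_mul_right _ (by simp only [C, add_mul]; omega)
  -- short blocks: count the giant events
  obtain ⟨i, hi, hmax⟩ := Finset.exists_mem_eq_sup (Finset.range (b.1.length + 1))
    (Finset.nonempty_range_iff.2 (by omega)) fun i => (ψ (endPt (b.1.take i))).natAbs
  have hi' : i ≤ b.1.length := Nat.le_of_lt_succ (Finset.mem_range.1 hi)
  have key : ∀ φ : (Fin d → ℤ) →+ ℤ, (lext ψ b : ℤ) ≤ φ (endPt (b.1.take i)) →
      (lext ψ b : ℝ≥0∞) ≤ (C : ℝ≥0∞) * H + (adv sl : ℝ≥0∞) *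
        ∑' k, (GiantBlk ℓ φ sl (h' - 1) (4 * (R * sl)) (K + k)).indicator
            (fun b => (blkLev b : ℝ≥0∞)) b := by
    intro φ hφ
    have hv : (lext ψ b : ℝ) ≤ wt ℓ φ sl (endPt (b.1.take i)) := by
      rw [wt_apply]
      have : 0 ≤ 2 * (sl : ℝ) * lev ℓ (endPt (b.1.take i)) :=
        mul_nonneg (by positivity) (lev_in_block b hi').1
      have h2 : ((lext ψ b : ℤ) : ℝ) ≤ ((φ (endPt (b.1.take i)) : ℤ) : ℝ) := Int.cast_le.2 hφ
      rw [Int.cast_natCast] at h2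
      linarith
    have hA : 1 ≤ adv sl * H := Nat.mul_pos (by simp [adv]) hH1
    have hex : ∃ n, lext ψ b ≤ (4 * (R * sl) + (K + n) * adv sl) * H := by
      refine ⟨lext ψ b, ?_⟩
      calc lext ψ b ≤ (K + lext ψ b) * (adv sl * H) :=
            (Nat.le_add_left _ K).trans (Nat.le_mul_of_pos_right _ hA)
        _ ≤ _ := by rw [← mul_assoc]; exact Nat.mul_le_mul_right _ (Nat.le_add_left _ _)
    set n := Nat.find hex with hn
    have hmem : ∀ k < n, b ∈ GiantBlk ℓ φ sl (h' - 1) (4 * (R * sl)) (K + k) := by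
      intro k hk
      refine ⟨hh, i, hi', lt_of_lt_of_le ?_ hv⟩
      have := Nat.find_min hex hk
      rw [not_le] at this
      exact_mod_cast this
    calc (lext ψ b : ℝ≥0∞) ≤ ((C * H + adv sl * (n * H) : ℕ) : ℝ≥0∞) := by
          refine Nat.cast_le.2 ((Nat.find_spec hex).trans ?_)
          rw [← hn]
          have e1 : (4 * (R * sl) + (K + n) * adv sl) * H =
              (4 * (R * sl) + K * adv sl) * H + adv sl * (n * H) := by ring
          rw [e1]
          refine Nat.add_le_add_right (Nat.mul_le_mul_right _ ?_) _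
          simp only [C, add_mul, mul_assoc]
          omega
      _ ≤ _ := by
          rw [Nat.cast_add, Nat.cast_mul, Nat.cast_mul, Nat.cast_mul]
          refine add_le_add le_rfl (mul_le_mul' le_rfl ?_)
          calc (n : ℝ≥0∞) * H = ∑ k ∈ Finset.range n,
                (GiantBlk ℓ φ sl (h' - 1) (4 * (R * sl)) (K + k)).indicator
                  (fun b => (blkLev b : ℝ≥0∞)) b := by
                rw [Finset.sum_congr rfl fun k hk =>
                  Set.indicator_of_mem (hmem k (Finset.mem_range.1 hk)) _]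
                simp [H]
            _ ≤ _ := ENNReal.sum_le_tsum _
  refine (Nat.cast_le.2 (min_le_left _ _)).trans ?_
  rcases le_total 0 (ψ (endPt (b.1.take i))) with hs | hs
  · refine (key ψ ?_).trans (add_le_add le_rfl (mul_le_mul' le_rfl le_self_add))
    rw [lext, hmax]; omega
  · refine (key (-ψ) ?_).trans (add_le_add le_rfl (mul_le_mul' le_rfl le_add_self))
    rw [lext, hmax, AddMonoidHom.neg_apply]; omega

/-- The lateral extent of a block has finite mean. -/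
theorem mean_lext (hel : IsElliptic μ) (hN : Nrm ℓ e) (hp : annealed μ (Dp ℓ) ≠ 0)
    (hψ : ∀ e, |ψ (dirVec e)| ≤ 1) {f f' : Dir d} (heψ : ψ (dirVec e) = 0)
    (hf : ψ (dirVec f) = 1) (hf' : ψ (dirVec f') = -1) :
    ∑' b, blkPMF hel hN hp b * (lext ψ b : ℝ≥0∞) ≠ ⊤ := by
  classical
  set p := annealed μ (Dp ℓ)
  set q := blkPMF hel hN hp
  have hpt : p ≠ ⊤ := measure_ne_top _ _
  obtain ⟨L0, hL0⟩ := ENNReal.exists_nat_gt (mean_blkLev hel hN hp)
  set L := max L0 1
  have hL1 : 1 ≤ L := le_max_right _ _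
  have hL : ∑' b, q b * (blkLev b : ℝ≥0∞) ≤ L :=
    hL0.le.trans (Nat.cast_le.2 (le_max_left _ _))
  set g := W μ [e] * (p / 2) with hgdef
  have hp2 : p / 2 ≠ 0 := ENNReal.div_ne_zero.2 ⟨hp, ENNReal.ofNat_ne_top⟩
  have hg0 : g ≠ 0 := mul_ne_zero (W_pos hel _).ne' hp2
  have hgt : g ≠ ⊤ := ENNReal.mul_ne_top (W_ne_top _) (ENNReal.div_ne_top hpt two_ne_zero)
  set c := g / 2 * g / 3
  have hc0 : c ≠ 0 := ENNReal.div_ne_zero.2 ⟨mul_ne_zero
    (ENNReal.div_ne_zero.2 ⟨hg0, ENNReal.ofNat_ne_top⟩) hg0, ENNReal.ofNat_ne_top⟩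
  have hct : c ≠ ⊤ := ENNReal.div_ne_top
    (ENNReal.mul_ne_top (ENNReal.div_ne_top hgt two_ne_zero) hgt) (by norm_num)
  obtain ⟨H1, hH1⟩ := exists_levTail_le hel hN hp (δ := c / 2)
    (ENNReal.div_ne_zero.2 ⟨hc0, ENNReal.ofNat_ne_top⟩)
  set Cc : ℕ := 10 * (1 + 2 * L + 2 * H1)
  set ε : ℝ≥0∞ := min (1 / 2) (c / Cc)
  have hCc : (Cc : ℝ≥0∞) ≠ 0 := by simp only [Nat.cast_ne_zero, Cc]; omega
  have hε0 : ε ≠ 0 := ne_of_gt (lt_min (by simp)
    (pos_iff_ne_zero.2 (ENNReal.div_ne_zero.2 ⟨hc0, ENNReal.natCast_ne_top _⟩)))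
  have hεt : ε ≠ ⊤ := ne_top_of_le_ne_top (by simp) (min_le_left _ _)
  obtain ⟨R0, hR0⟩ := ENNReal.exists_nat_gt (ENNReal.div_ne_top
    (ENNReal.natCast_ne_top (2 * L * (1 + 2 * L + 2 * H1))) hc0)
  set R := R0 + 1
  have hξ : (1 + 2 * L + 2 * H1) * (10 * ε + 2 * (L : ℝ≥0∞) / R) + 2 * levTail hel hN hp H1 ≤ g / 2 * g := by
    calc _ ≤ c + c + c := by
          refine add_le_add ?_ ((mul_le_mul' le_rfl hH1).trans ENNReal.mul_div_le)
          rw [mul_add]
          refine add_le_add ?_ ?_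
          · calc _ = (Cc : ℝ≥0∞) * ε := by simp only [Cc]; push_cast; ring
              _ ≤ (Cc : ℝ≥0∞) * (c / Cc) := mul_le_mul' le_rfl (min_le_right _ _)
              _ = c := ENNReal.mul_div_cancel hCc (ENNReal.natCast_ne_top _)
          · rw [← mul_div_assoc]
            refine ENNReal.div_le_of_le_mul ?_
            rw [ENNReal.div_lt_iff (Or.inl hc0) (Or.inl hct)] at hR0
            calc (1 + 2 * (L : ℝ≥0∞) + 2 * H1) * (2 * L) = ((2 * L * (1 + 2 * L + 2 * H1) : ℕ) : ℝ≥0∞) := by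
                  push_cast; ring
              _ ≤ (R0 : ℝ≥0∞) * c := hR0.le
              _ ≤ _ := by rw [mul_comm c]; exact mul_le_mul' (Nat.cast_le.2 R0.le_succ) le_rfl
      _ = 3 * c := by ring
      _ = _ := ENNReal.mul_div_cancel (by norm_num) (by norm_num)
  set θ := 1 - g with hθdef
  have hθ : θ < 1 := ENNReal.sub_lt_self ENNReal.one_ne_top one_ne_zero hg0
  set A : ℕ := 22
  set D : ℕ := A * (8 * (2 * L + 1))
  have hε3 : (0 : ℝ≥0∞) < ε / 3 :=
    pos_iff_ne_zero.2 (ENNReal.div_ne_zero.2 ⟨hε0, by norm_num⟩)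
  obtain ⟨K, hK⟩ : ∃ K, (D : ℝ≥0∞) * g⁻¹ * θ ^ K ≤ ε / 3 := by
    have h1 := ENNReal.Tendsto.const_mul (a := (D : ℝ≥0∞) * g⁻¹)
      (ENNReal.tendsto_pow_atTop_nhds_zero_of_lt_one hθ)
      (Or.inr (ENNReal.mul_ne_top (ENNReal.natCast_ne_top _) (ENNReal.inv_ne_top.2 hg0)))
    rw [mul_zero] at h1
    exact (h1.eventually (eventually_le_nhds hε3)).exists
  obtain ⟨H0, hH0⟩ := exists_levTail_le hel hN hp (δ := ε / 3 / ((3 + 4 * R + K * A : ℕ) : ℝ≥0∞))
    (ENNReal.div_ne_zero.2 ⟨hε3.ne', ENNReal.natCast_ne_top _⟩)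
  set S := ∑' b, {b : Blk ℓ | blkLev b ≤ H0}.indicator (fun b => q b * (lext ψ b : ℝ≥0∞)) b
  have hS : S ≠ ⊤ := short_extent_ne_top hel hN hp hψ heψ hf hf' H0
  obtain ⟨s0, hs0⟩ := ENNReal.exists_nat_gt (ENNReal.div_ne_top hS hε3.ne')
  set sl := s0 + 1
  have hsl : 1 ≤ sl := by omega
  have hadv : adv sl ≤ A * sl := by
    simp only [adv, wstep, A]
    omega
  have hmass : ∀ h k, aExt hel hN hp ψ sl h ≤ sl * ε → ∀ φ, (φ = ψ ∨ φ = -ψ) →
      giantMass hel hN hp φ sl h (4 * (R * sl)) k ≤ (4 * (2 * L + 1) : ℕ) * θ ^ k := by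
    intro h k ha φ hφ
    have hφ1 : ∀ e, |φ (dirVec e)| ≤ 1 := fun e => by
      rcases hφ with rfl | rfl
      · exact hψ e
      · simpa using hψ e
    have hφe : φ (dirVec e) = 0 := by rcases hφ with rfl | rfl <;> simp [heψ]
    have haφ : aExt hel hN hp φ sl h ≤ sl * ε := by
      rcases hφ with rfl | rfl
      · exact ha
      · rwa [aExt_neg]
    have hout : annealed μ (Dp ℓ \ InCone ℓ φ sl h) ≤ p / 2 := by
      have h1 := cone_exit_le (ψ := φ) (sl := sl) (h := h) hel hN hp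
      rw [← ENNReal.mul_le_mul_iff_right (a := (sl : ℝ≥0∞)) (Nat.cast_ne_zero.2 (by omega))
        (ENNReal.natCast_ne_top _)]
      refine h1.trans ((mul_le_mul' le_rfl haφ).trans ?_)
      calc p * (sl * ε) ≤ p * (sl * (1 / 2)) :=
            mul_le_mul' le_rfl (mul_le_mul' le_rfl (min_le_left _ _))
        _ = _ := by rw [div_eq_mul_inv, div_eq_mul_inv, one_mul]; ring
    have hin : p / 2 ≤ annealed μ (InCone ℓ φ sl h) := by
      have h1 : p ≤ annealed μ (InCone ℓ φ sl h) + p / 2 := by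
        refine le_trans ?_ (add_le_add le_rfl hout)
        refine le_trans (measure_mono fun s hs => ?_) (measure_union_le _ _)
        by_cases h2 : s ∈ InCone ℓ φ sl h
        · exact Or.inl h2
        · exact Or.inr ⟨hs, h2⟩
      nth_rw 1 [← ENNReal.add_halves p] at h1
      exact (ENNReal.add_le_add_iff_right (ENNReal.div_ne_top hpt two_ne_zero)).1 h1
    have hgood : g ≤ annealed μ (CGood ℓ φ sl h) :=
      (mul_le_mul' le_rfl hin).trans (good_ge hN hφe)
    have h1 := giantSup_le hel hN hφ1 hsl hp hgood hg0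
      (beta_le hel hN hp hsl (R := R) (H1 := H1) (by omega) hL haφ) hξ k
    have h2 := (giantMass_le (ψ := φ) (sl := sl) (h := h) hel hN hp hL1 hL (4 * (R * sl)) k).trans
      (mul_le_mul' le_rfl h1)
    rw [← ENNReal.mul_le_mul_iff_right hp hpt]
    exact h2.trans_eq (by push_cast; ring)
  have hsum : ∀ h', (h' = 0 ∨ aExt hel hN hp ψ sl (h' - 1) ≤ sl * ε) → ∀ φ, (φ = ψ ∨ φ = -ψ) →
      ∑' b, q b * ∑' k, (GiantBlk ℓ φ sl (h' - 1) (4 * (R * sl)) (K + k)).indicator
        (fun b => (blkLev b : ℝ≥0∞)) b ≤ (4 * (2 * L + 1) : ℕ) * (θ ^ K * g⁻¹) := by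
    intro h' hh φ hφ
    simp only [← ENNReal.tsum_mul_left]
    rw [ENNReal.tsum_comm]
    have hg1 : g ≤ 1 := by
      calc g ≤ 1 * 1 := mul_le_mul' (by rw [← annealed_cyl]; exact prob_le_one)
            (ENNReal.half_le_self.trans prob_le_one)
        _ = 1 := one_mul _
    have hgeo : (4 * (2 * L + 1) : ℕ) * (θ ^ K * g⁻¹) =
        ∑' k : ℕ, ((4 * (2 * L + 1) : ℕ) : ℝ≥0∞) * θ ^ (K + k) := by
      simp only [pow_add, ENNReal.tsum_mul_left, ENNReal.tsum_geometric]
      rw [hθdef, ENNReal.sub_sub_cancel ENNReal.one_ne_top hg1]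
    rw [hgeo]
    refine ENNReal.tsum_le_tsum fun k => ?_
    rcases hh with rfl | hh
    · refine le_of_eq_of_le (ENNReal.tsum_eq_zero.2 fun b => ?_) zero_le
      rw [Set.indicator_of_notMem, mul_zero]
      rintro ⟨h1, -⟩
      have := one_le_blkLev b
      omega
    · refine le_trans (le_of_eq (tsum_congr fun b => ?_)) (hmass _ (K + k) hh φ hφ)
      rw [← Set.indicator_mul_right (GiantBlk ℓ φ sl (h' - 1) (4 * (R * sl)) (K + k)) (fun b => q b)]
  have hstep : ∀ h', aExt hel hN hp ψ sl h' ≤ sl * ε := by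
    intro h'
    induction h' using Nat.strong_induction_on with
    | _ h' ih =>
      have hh : h' = 0 ∨ aExt hel hN hp ψ sl (h' - 1) ≤ sl * ε := by
        rcases Nat.eq_zero_or_pos h' with h0 | h0
        · exact Or.inl h0
        · exact Or.inr (ih _ (by omega))
      set C : ℕ := (3 + 4 * R) * sl + K * adv sl
      calc aExt hel hN hp ψ sl h' ≤ S + (C : ℝ≥0∞) * levTail hel hN hp H0 + (adv sl : ℝ≥0∞) *
            ((4 * (2 * L + 1) : ℕ) * (θ ^ K * g⁻¹) + (4 * (2 * L + 1) : ℕ) * (θ ^ K * g⁻¹)) := by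
            refine le_trans ?_ (add_le_add le_rfl (mul_le_mul' le_rfl
              (add_le_add (hsum h' hh ψ (Or.inl rfl)) (hsum h' hh (-ψ) (Or.inr rfl)))))
            rw [levTail, ← ENNReal.tsum_add, ← ENNReal.tsum_mul_left, ← ENNReal.tsum_mul_left,
              ← ENNReal.tsum_add, ← ENNReal.tsum_add]
            refine ENNReal.tsum_le_tsum fun b => ?_
            refine (mul_le_mul' le_rfl (ext_split (ψ := ψ) hsl h' R K H0 b)).trans (le_of_eq ?_)
            rw [mul_add, mul_add]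
            refine congrArg₂ (· + ·) (congrArg₂ (· + ·) ?_ ?_) ?_
            · simp [Set.indicator_apply, q]
            · simp only [Set.indicator_apply, Set.mem_ofPred_eq, C]
              split_ifs <;> ring
            · ring
        _ ≤ sl * (ε / 3) + sl * (ε / 3) + sl * (ε / 3) := by
            refine add_le_add (add_le_add ?_ ?_) ?_
            · rw [ENNReal.div_lt_iff (Or.inl hε3.ne') (Or.inl (ENNReal.div_ne_top hεt
                (by norm_num)))] at hs0
              exact hs0.le.trans (mul_le_mul' (Nat.cast_le.2 s0.le_succ) le_rfl)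
            · calc (C : ℝ≥0∞) * levTail hel hN hp H0
                  ≤ ((sl * (3 + 4 * R + K * A) : ℕ) : ℝ≥0∞) * levTail hel hN hp H0 := by
                    refine mul_le_mul' (Nat.cast_le.2 ?_) le_rfl
                    have := Nat.mul_le_mul_left K hadv
                    have e1 : sl * (3 + 4 * R + K * A) = (3 + 4 * R) * sl + K * (A * sl) := by ring
                    simp only [C]; omega
                _ ≤ _ := by
                    rw [Nat.cast_mul, mul_assoc]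
                    refine mul_le_mul' le_rfl ((mul_le_mul' le_rfl hH0).trans ?_)
                    exact ENNReal.mul_div_le
            · calc _ ≤ ((A * sl : ℕ) : ℝ≥0∞) *
                    ((4 * (2 * L + 1) : ℕ) * (θ ^ K * g⁻¹) + (4 * (2 * L + 1) : ℕ) * (θ ^ K * g⁻¹)) :=
                    mul_le_mul' (Nat.cast_le.2 hadv) le_rfl
                _ = (sl : ℝ≥0∞) * ((D : ℝ≥0∞) * g⁻¹ * θ ^ K) := by
                    simp only [D]; push_cast; ring
                _ ≤ _ := mul_le_mul' le_rfl hK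
        _ = _ := by rw [← mul_add, ← mul_add, ENNReal.add_thirds]
  refine ne_top_of_le_ne_top (ENNReal.mul_ne_top (ENNReal.natCast_ne_top sl) hεt) ?_
  rw [ENNReal.tsum_eq_iSup_sum]
  refine iSup_le fun s => ?_
  refine le_trans ?_ (hstep (s.sup (lext ψ)))
  refine le_trans (le_of_eq (Finset.sum_congr rfl fun b hb => ?_)) (ENNReal.sum_le_tsum s)
  rw [min_eq_left]
  have h1 : lext ψ b ≤ s.sup (lext ψ) := Finset.le_sup hb
  have h2 : s.sup (lext ψ) ≤ sl * s.sup (lext ψ) := Nat.le_mul_of_pos_left _ hsl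
  rw [mul_add]
  omega

end Vale.Agent.P147.Re
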