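import Vale.Agent.P147.Real.Extent

/-!
Escape in a real direction implies escape in an integer direction.
-/

noncomputable section

namespace Vale.Agent.P147.Re

open MeasureTheory ProbabilityTheory Filter
open scoped ENNReal Topology

set_option linter.unusedSectionVars false

variable {d : ℕ} {μ : Measure (Row d)} {u : Fin d → ℝ}

/-- A coordinate as a homomorphism. -/
def crd (j : Fin d) : (Fin d → ℤ) →+ ℤ := Pi.evalAddMonoidHom (fun _ => ℤ) j

lemma crd_apply (j : Fin d) (x : Fin d → ℤ) : crd j x = x j := rfl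

lemma abs_crd_step (j : Fin d) (e : Dir d) : |crd j (dirVec e)| ≤ 1 := by
  rw [crd_apply, dirVec]
  obtain ⟨i, b⟩ := e
  rcases eq_or_ne j i with h | h <;> cases b <;> simp [h]

lemma lev_dirVec (u : Fin d → ℝ) (e : Dir d) :
    lev u (dirVec e) = if e.2 then u e.1 else -u e.1 := by
  obtain ⟨i, b⟩ := e
  cases b <;> simp [lev, dirVec, Pi.single_apply]

/-- Rescaling makes a largest step gain `4` levels. -/
lemma exists_nrm (hu : u ≠ 0) :
    ∃ c : ℝ, 0 < c ∧ ∃ e : Dir d, Nrm (fun i => c * u i) e := by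
  classical
  obtain ⟨i, hi⟩ := Function.ne_iff.1 hu
  simp only [Pi.zero_apply] at hi
  have : Nonempty (Fin d) := ⟨i⟩
  obtain ⟨e, -, he⟩ := Finset.exists_max_image (Finset.univ : Finset (Dir d))
    (fun f => lev u (dirVec f)) ⟨(i, true), Finset.mem_univ _⟩
  have hneg : ∀ f : Dir d, -lev u (dirVec f) ≤ lev u (dirVec e) := fun f => by
    refine le_of_eq_of_le ?_ (he (f.1, !f.2) (Finset.mem_univ _))
    obtain ⟨a, b⟩ := f
    cases b <;> simp [lev_dirVec]
  set M := lev u (dirVec e)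
  have hM : 0 < M := by
    rcases lt_or_gt_of_ne hi with h | h
    · exact lt_of_lt_of_le (by simpa [lev_dirVec] using h) (he (i, false) (Finset.mem_univ _))
    · exact lt_of_lt_of_le (by simpa [lev_dirVec] using h) (he (i, true) (Finset.mem_univ _))
  have hlev : ∀ x, lev (fun i => 4 / M * u i) x = 4 / M * lev u x := fun x => by
    simp [lev, Finset.mul_sum, mul_assoc]
  refine ⟨4 / M, by positivity, e, ⟨?_, fun f => ?_⟩⟩
  · rw [hlev]; exact div_mul_cancel₀ _ hM.ne'
  · rw [hlev, abs_mul, abs_of_pos (show (0 : ℝ) < 4 / M by positivity)]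
    calc 4 / M * |lev u (dirVec f)| ≤ 4 / M * M :=
          mul_le_mul_of_nonneg_left (abs_le.2 ⟨by linarith [hneg f], he f (Finset.mem_univ _)⟩)
            (by positivity)
      _ = 4 := div_mul_cancel₀ _ hM.ne'

lemma AR_scale {c : ℝ} (hc : 0 < c) : AR (fun i => c * u i) = AR u := by
  ext s
  have : ∀ x : Fin d → ℤ, dotR (fun i => c * u i) x = c * dotR u x := fun x => by
    simp [dotR, Finset.mul_sum, mul_assoc]
  simp only [AR, Set.mem_ofPred_eq, this]
  exact tendsto_const_mul_atTop_of_pos hc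

/-- The event of staying for ever in the cones of the coordinates other than `i0`. -/
def ConeAll (u : Fin d → ℝ) (i0 : Fin d) (sl : ℕ) : Set (Walk d) :=
  Dp u ∩ {s | ∀ n, ∀ j ≠ i0, |((pos s n j : ℤ) : ℝ)| ≤ sl * (lev u (pos s n) + 1)}

lemma noHigh_mono {s : Walk d} {h h' n : ℕ} (hh : h ≤ h') (hs : NoHigh u h s n) :
    NoHigh u h' s n := fun i hi hr => (hs i hi hr).trans (by exact_mod_cast hh)

lemma exists_noHigh (s : Walk d) (n : ℕ) : ∃ h, NoHigh u h s n := by
  obtain ⟨h, hh⟩ := exists_nat_ge (∑ i ∈ Finset.range (n + 1), |lev u (pos s i)|)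
  exact ⟨h, fun i hi _ => (le_abs_self _).trans ((Finset.single_le_sum
    (f := fun i => |lev u (pos s i)|) (fun _ _ => abs_nonneg _)
    (Finset.mem_range.2 (Nat.lt_succ_of_le hi))).trans hh)⟩

/-- Cones give an integer direction. -/
lemma coneAll_subset {e : Dir d} (hN : Nrm u e) (sl : ℕ) :
    ∃ l : Fin d → ℤ, ConeAll u e.1 sl ⊆ Vale.Agent.P147.Ap l := by
  classical
  set i0 := e.1
  have hu0 : |u i0| = 4 := by
    have h1 := hN.step
    rw [lev_dirVec] at h1
    split_ifs at h1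
    · rw [h1]; norm_num
    · rw [← abs_neg, h1]; norm_num
  have hle : ∀ i, |u i| ≤ 4 := fun i => by
    have := hN.le (i, true)
    simpa [lev_dirVec] using this
  set C : ℝ := 1 + d * sl with hC
  obtain ⟨N, hNat⟩ := exists_nat_gt ((d : ℝ) * C + 1)
  refine ⟨fun i => ⌊(N : ℝ) * u i⌋, fun s hs => ?_⟩
  obtain ⟨⟨h0, hA⟩, hc⟩ := hs
  have hbound : ∀ n i, |((pos s n i : ℤ) : ℝ)| ≤ C * (lev u (pos s n) + 1) := by
    intro n i
    set x := pos s n
    set L := lev u x
    have hL : 0 ≤ L := h0 n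
    have hsl : (0 : ℝ) ≤ sl * (L + 1) := by positivity
    rcases eq_or_ne i i0 with rfl | hi
    · have e1 : u i0 * (x i0 : ℝ) = L - ∑ j ∈ Finset.univ.erase i0, u j * (x j : ℝ) := by
        show _ = (∑ j, u j * (x j : ℝ)) - _
        rw [← Finset.add_sum_erase _ _ (Finset.mem_univ i0)]; ring
      have e2 : |u i0 * (x i0 : ℝ)| ≤ L + ∑ _j ∈ Finset.univ.erase i0, 4 * (sl * (L + 1)) := by
        rw [e1]
        refine (abs_sub _ _).trans (add_le_add (le_of_eq (abs_of_nonneg hL))
          ((Finset.abs_sum_le_sum_abs _ _).trans (Finset.sum_le_sum fun j hj => ?_)))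
        rw [abs_mul]
        exact mul_le_mul (hle j) (hc n j (Finset.ne_of_mem_erase hj)) (abs_nonneg _) (by norm_num)
      have e3 : ∑ _j ∈ Finset.univ.erase i0, 4 * ((sl : ℝ) * (L + 1)) ≤ d * (4 * (sl * (L + 1))) := by
        rw [Finset.sum_const, nsmul_eq_mul]
        refine mul_le_mul_of_nonneg_right ?_ (by positivity)
        exact_mod_cast (Finset.card_le_univ _).trans_eq (Fintype.card_fin d)
      rw [abs_mul, hu0] at e2
      simp only [hC]
      linarith
    · refine (hc n i hi).trans ?_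
      have : (sl : ℝ) ≤ C := by
        have h1 : (1 : ℝ) * sl ≤ d * sl := by
          refine mul_le_mul_of_nonneg_right ?_ (Nat.cast_nonneg _)
          exact_mod_cast Fin.pos i
        simp only [hC]; linarith
      exact mul_le_mul_of_nonneg_right this (by positivity)
  have hkey : ∀ n, lev u (pos s n) - (N : ℝ) ≤
      ((Vale.Agent.P147.lev (fun i => ⌊(N : ℝ) * u i⌋) (pos s n) : ℤ) : ℝ) := by
    intro n
    have hL : 0 ≤ lev u (pos s n) := h0 n
    set L := lev u (pos s n) with hLd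
    have e1 : ((Vale.Agent.P147.lev (fun i => ⌊(N : ℝ) * u i⌋) (pos s n) : ℤ) : ℝ) =
        (N : ℝ) * L + ∑ i, ((⌊(N : ℝ) * u i⌋ : ℝ) - N * u i) * (pos s n i : ℝ) := by
      simp only [hLd, lev, Vale.Agent.P147.lev, AddMonoidHom.coe_mk, ZeroHom.coe_mk, Int.cast_sum,
        Int.cast_mul, Finset.mul_sum, ← Finset.sum_add_distrib]
      exact Finset.sum_congr rfl fun i _ => by ring
    have e2 : |∑ i, ((⌊(N : ℝ) * u i⌋ : ℝ) - N * u i) * (pos s n i : ℝ)| ≤
        (d : ℝ) * (C * (L + 1)) := by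
      refine (Finset.abs_sum_le_sum_abs _ _).trans ?_
      calc _ ≤ ∑ _i : Fin d, C * (L + 1) := Finset.sum_le_sum fun i _ => by
            rw [abs_mul]
            refine (mul_le_of_le_one_left (abs_nonneg _) ?_).trans (hbound n i)
            rw [abs_le]
            exact ⟨by linarith [Int.sub_one_lt_floor ((N : ℝ) * u i)],
              by linarith [Int.floor_le ((N : ℝ) * u i)]⟩
        _ = _ := by simp
    have e3 : ((d : ℝ) * C + 1) * (L + 1) ≤ N * (L + 1) :=
      mul_le_mul_of_nonneg_right hNat.le (by linarith)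
    rw [e1]
    linarith [(abs_le.1 e2).1]
  show Tendsto (fun n => Vale.Agent.P147.lev (fun i => ⌊(N : ℝ) * u i⌋) (pos s n)) atTop atTop
  rw [← tendsto_intCast_atTop_iff (R := ℝ)]
  exact tendsto_atTop_mono hkey (tendsto_atTop_add_const_right _ (-(N : ℝ)) hA)

variable [IsProbabilityMeasure μ]

/-- Some cone is never left with positive probability. -/
theorem exists_coneAll {e : Dir d} (hel : IsElliptic μ) (hN : Nrm u e)
    (hp : annealed μ (Dp u) ≠ 0) : ∃ sl : ℕ, annealed μ (ConeAll u e.1 sl) ≠ 0 := by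
  classical
  set p := annealed μ (Dp u)
  set q := blkPMF hel hN hp
  set J := Finset.univ.erase e.1
  have hext : ∀ j ∈ J, ∑' b, q b * (lext (crd j) b : ℝ≥0∞) ≠ ⊤ := by
    intro j hj
    have hj' : j ≠ e.1 := Finset.ne_of_mem_erase hj
    refine mean_lext hel hN hp (abs_crd_step j) (f := (j, true)) (f' := (j, false)) ?_ ?_ ?_
    · obtain ⟨i, b⟩ := e
      cases b <;> simp [crd_apply, dirVec, hj']
    · simp [crd_apply, dirVec]
    · simp [crd_apply, dirVec]
  set E := ∑ j ∈ J, ∑' b, q b * (lext (crd j) b : ℝ≥0∞)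
  obtain ⟨sl, hsl⟩ := ENNReal.exists_nat_gt (show 2 * E ≠ ⊤ from
    ENNReal.mul_ne_top ENNReal.ofNat_ne_top (ENNReal.sum_ne_top.2 hext))
  refine ⟨sl, fun h0 => ?_⟩
  have hsl0 : (sl : ℝ≥0∞) ≠ 0 := ne_bot_of_gt hsl
  have hexit : ∀ h, annealed μ (⋃ j ∈ J, Dp u \ InCone u (crd j) sl h) ≤ p / 2 := by
    intro h
    rw [← ENNReal.mul_le_mul_iff_right hsl0 (ENNReal.natCast_ne_top sl)]
    calc (sl : ℝ≥0∞) * annealed μ (⋃ j ∈ J, Dp u \ InCone u (crd j) sl h)
        ≤ ∑ j ∈ J, (sl : ℝ≥0∞) * annealed μ (Dp u \ InCone u (crd j) sl h) := by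
          rw [← Finset.mul_sum]
          exact mul_le_mul' le_rfl (measure_biUnion_finset_le _ _)
      _ ≤ ∑ j ∈ J, p * ∑' b, q b * (lext (crd j) b : ℝ≥0∞) := by
          refine Finset.sum_le_sum fun j _ => (cone_exit_le hel hN hp).trans (mul_le_mul' le_rfl
            (ENNReal.tsum_le_tsum fun b => mul_le_mul' le_rfl (Nat.cast_le.2 (min_le_left _ _))))
      _ = p * E := by rw [← Finset.mul_sum]
      _ = p / 2 * (2 * E) := by
          rw [← mul_assoc, ENNReal.div_mul_cancel two_ne_zero ENNReal.ofNat_ne_top]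
      _ ≤ p / 2 * sl := mul_le_mul' le_rfl hsl.le
      _ = _ := mul_comm _ _
  have hmono : Monotone fun h => ⋃ j ∈ J, Dp u \ InCone u (crd j) sl h := by
    intro h h' hh s hs
    simp only [Set.mem_iUnion, Set.mem_sdiff] at hs ⊢
    obtain ⟨j, hj, hD, hn⟩ := hs
    exact ⟨j, hj, hD, fun hc => hn ⟨hD, fun n hnh => hc.2 n (noHigh_mono hh hnh)⟩⟩
  have hsub : Dp u ⊆ ConeAll u e.1 sl ∪ ⋃ h, ⋃ j ∈ J, Dp u \ InCone u (crd j) sl h := by
    intro s hs
    by_cases hc : s ∈ ConeAll u e.1 sl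
    · exact Or.inl hc
    refine Or.inr ?_
    simp only [ConeAll, Set.mem_inter_iff, Set.mem_ofPred_eq, not_and, not_forall, not_le] at hc
    obtain ⟨n, j, hj, hlt⟩ := hc hs
    obtain ⟨h, hh⟩ := exists_noHigh (u := u) s n
    simp only [Set.mem_iUnion, Set.mem_sdiff]
    exact ⟨h, j, Finset.mem_erase.2 ⟨hj, Finset.mem_univ _⟩, hs,
      fun hc' => absurd (hc'.2 n hh) (not_le.2 hlt)⟩
  have hle : p ≤ p / 2 := by
    refine (measure_mono hsub).trans ((measure_union_le _ _).trans ?_)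
    rw [h0, zero_add, hmono.measure_iUnion]
    exact iSup_le hexit
  exact absurd hle (not_le.2 (ENNReal.half_lt_self hp (measure_ne_top _ _)))

/-- Escape in a real direction with positive probability gives an integer direction of escape with
positive probability. -/
theorem exists_int_of_AR (he : IsElliptic μ) (h : annealed μ (AR u) ≠ 0) :
    ∃ l : Fin d → ℤ, annealed μ (Vale.Agent.P147.Ap l) ≠ 0 := by
  obtain ⟨c, hc, e, hN⟩ := exists_nrm (ne_zero_of_AR h)
  have hp : annealed μ (Dp (fun i => c * u i)) ≠ 0 := Dp_ne_zero (by rwa [AR_scale hc])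
  obtain ⟨sl, hsl⟩ := exists_coneAll he hN hp
  obtain ⟨l, hl⟩ := coneAll_subset hN sl
  exact ⟨l, fun h0 => hsl (measure_mono_null hl h0)⟩

end Vale.Agent.P147.Re
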