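import Vale.Agent.P147.Real.Blocks
import Vale.Agent.P147.Sides

/-!
Renewal for a real direction: the block weights sum to one and blocks gain levels of finite mean.
-/

noncomputable section

namespace Vale.Agent.P147.Re

open MeasureTheory ProbabilityTheory Filter
open scoped ENNReal Topology

set_option linter.unusedSectionVars false

variable {d : ℕ} {μ : Measure (Row d)} {ℓ : Fin d → ℝ} {e : Dir d}

/-- The step `e` gains `4` levels and no step changes the level by more. -/
structure Nrm (ℓ : Fin d → ℝ) (e : Dir d) : Prop where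
  step : lev ℓ (dirVec e) = 4
  le : ∀ f, |lev ℓ (dirVec f)| ≤ 4

/-- Escape to `+∞` in direction `ℓ`. -/
def Ap (ℓ : Fin d → ℝ) : Set (Walk d) :=
  {s | Tendsto (fun n => lev ℓ (pos s n)) atTop atTop}

lemma Ap_eq_AR (ℓ : Fin d → ℝ) : Ap ℓ = AR ℓ := rfl

lemma measurableSet_Ap (ℓ : Fin d → ℝ) : MeasurableSet (Ap ℓ) := measurableSet_AR ℓ

/-- All levels nonnegative. -/
def D0 (ℓ : Fin d → ℝ) : Set (Walk d) := {s | ∀ n, 0 ≤ lev ℓ (pos s n)}

lemma measurableSet_D0 (ℓ : Fin d → ℝ) : MeasurableSet (D0 ℓ) := measurableSet_D0R ℓ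

lemma Dp_subset_D0 : Dp ℓ ⊆ D0 ℓ := fun _ hs => hs.1

lemma shift_mem_Ap (s : Walk d) (a : ℕ) (h : s ∈ Ap ℓ) : shift a s ∈ Ap ℓ :=
  (tendsto_shift_iff s a).2 h

lemma fresh_of_last {l : List (Dir d)}
    (hlast : ∀ i < l.length, Lt ℓ l i < lev ℓ (endPt l)) {s : Walk d} (hs : s ∈ D0 ℓ) (n : ℕ) :
    endPt l + pos s n ∉ srcs 0 l := by
  intro h
  obtain ⟨i, hi, he⟩ := mem_srcs.1 h
  rw [zero_add] at he
  have h1 := congrArg (lev ℓ) he
  rw [map_add] at h1
  have h2 := hlast i hi
  have h3 := hs n
  simp only [Lt] at h2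
  linarith

/-- The first passage paths over level `m`. -/
def firstPass (ℓ : Fin d → ℝ) (m : ℝ) : Set (List (Dir d)) :=
  {l | m ≤ lev ℓ (endPt l) ∧ ∀ i < l.length, Lt ℓ l i < m}

lemma firstPass_unique (m : ℝ) (s : Walk d) (a b : ℕ) (ha : pre s a ∈ firstPass ℓ m)
    (hb : pre s b ∈ firstPass ℓ m) : a = b := by
  by_contra hne
  wlog hab : a < b generalizing a b
  · exact this b a hb ha (Ne.symm hne) (by omega)
  have := hb.2 a (by simpa using hab)
  rw [Lt_pre s hab.le] at this
  have h2 := ha.1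
  rw [endPt_pre] at h2
  linarith

lemma exists_firstPass {s : Walk d} (m : ℝ) (h : ∃ n, m ≤ lev ℓ (pos s n)) :
    ∃ a, pre s a ∈ firstPass ℓ m := by
  classical
  refine ⟨Nat.find h, by rw [endPt_pre]; exact Nat.find_spec h, fun i hi => ?_⟩
  rw [length_pre] at hi
  rw [Lt_pre s hi.le]
  exact not_le.1 (Nat.find_min h hi)

lemma firstPass_last {m : ℝ} {l : List (Dir d)} (hl : l ∈ firstPass ℓ m) :
    ∀ i < l.length, Lt ℓ l i < lev ℓ (endPt l) := fun i hi => (hl.2 i hi).trans_le hl.1

lemma endPt_concat (l : List (Dir d)) (f : Dir d) :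
    endPt (l ++ [f]) = endPt l + dirVec f := by simp

lemma not_mem_srcs_of_last {l : List (Dir d)}
    (hlast : ∀ i < l.length, Lt ℓ l i < lev ℓ (endPt l)) : endPt l ∉ srcs 0 l := by
  intro h
  obtain ⟨i, hi, he⟩ := mem_srcs.1 h
  rw [zero_add] at he
  have h2 := hlast i hi
  simp only [Lt, ← he] at h2
  exact lt_irrefl _ h2

/-- A first passage followed by `e` is a record by the margin `4`. -/
lemma margin_of_last (hN : Nrm ℓ e) {l : List (Dir d)}
    (hlast : ∀ i < l.length, Lt ℓ l i < lev ℓ (endPt l)) :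
    ∀ i < (l ++ [e]).length, Lt ℓ (l ++ [e]) i + 4 ≤ lev ℓ (endPt (l ++ [e])) := by
  intro i hi
  simp only [List.length_append, List.length_singleton] at hi
  rw [endPt_concat, map_add, hN.step, Lt_append_left _ _ _ (by omega)]
  rcases Nat.lt_succ_iff_lt_or_eq.1 hi with h | h
  · linarith [hlast i h]
  · rw [h, Lt_length]

variable [IsProbabilityMeasure μ]

theorem annealed_Dp_inter_ne_zero {G : Set (Walk d)} (hG : MeasurableSet G) (hGA : G ⊆ Ap ℓ)
    (hshift : ∀ s ∈ G, ∀ a, shift a s ∈ G) (hpos : annealed μ G ≠ 0) :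
    annealed μ (Dp ℓ ∩ G) ≠ 0 := by
  classical
  intro h0
  refine hpos (measure_mono_null (t := ⋃ l : List (Dir d), cyl l ∩
    shift l.length ⁻¹' (Dp ℓ ∩ G)) ?_ (measure_iUnion_null fun l => ?_))
  · intro s hs
    obtain ⟨N, hN⟩ := Filter.tendsto_atTop_atTop.1 (hGA hs) 0
    obtain ⟨a, ha, hmin⟩ := Finset.exists_min_image (Finset.range (N + 1))
      (fun n => lev ℓ (pos s n)) ⟨0, by simp⟩
    have hz : lev ℓ (pos s a) ≤ 0 := by simpa [pos] using hmin 0 (by simp)
    refine Set.mem_iUnion.2 ⟨pre s a, by simp [mem_cyl_iff], ?_⟩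
    rw [length_pre]
    refine ⟨⟨fun n => ?_, (tendsto_shift_iff s a).2 (hGA hs)⟩, hshift s hs a⟩
    have key : lev ℓ (pos s a) ≤ lev ℓ (pos s (a + n)) := by
      rcases le_or_gt (a + n) N with h | h
      · exact hmin _ (by simp; omega)
      · exact hz.trans (hN _ h.le)
    rw [lev_pos_shift] at key
    linarith
  · have hm : MeasurableSet (Dp ℓ ∩ G) := (measurableSet_Dp ℓ).inter hG
    have hmeas : Measurable fun ω : Env d => quenched ω (Dp ℓ ∩ G) :=
      (Measure.measurable_coe hm).comp measurable_quenched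
    rw [annealed_apply ((measurableSet_cyl _).inter (measurable_shift _ hm))]
    simp only [quenched_markov _ _ hm]
    have h1 : ∫⁻ ω, quenched (tau (endPt l) ω) (Dp ℓ ∩ G) ∂envLaw μ = 0 := by
      rw [← lintegral_map hmeas (measurable_tau _), envLaw_map_tau, ← annealed_apply hm, h0]
    have hcomp : Measurable fun ω : Env d => quenched (tau (endPt l) ω) (Dp ℓ ∩ G) :=
      hmeas.comp (measurable_tau _)
    rw [lintegral_eq_zero_iff hcomp] at h1
    rw [lintegral_eq_zero_iff ((measurable_qw 0 l).fun_mul hcomp)]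
    filter_upwards [h1] with ω hω
    simp only [Pi.zero_apply] at hω ⊢
    simp [hω]

lemma Dp_ne_zero (hpos : annealed μ (AR ℓ) ≠ 0) : annealed μ (Dp ℓ) ≠ 0 := fun h0 =>
  annealed_Dp_inter_ne_zero (measurableSet_Ap ℓ) subset_rfl (fun s hs a => shift_mem_Ap s a hs)
    hpos (measure_mono_null Set.inter_subset_left h0)

lemma W_concat {l : List (Dir d)} (hlast : ∀ i < l.length, Lt ℓ l i < lev ℓ (endPt l))
    (f : Dir d) : W μ (l ++ [f]) = W μ l * W μ [f] := by
  refine W_append l [f] fun z hz => ?_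
  simp only [srcs, List.mem_singleton] at hz
  rw [hz]; exact not_mem_srcs_of_last hlast

theorem annealed_noRegen (hel : IsElliptic μ) (hN : Nrm ℓ e) (hp : annealed μ (Dp ℓ) ≠ 0) :
    annealed μ (Ap ℓ ∩ {s | ∀ j, 0 < j → ¬RegenTime ℓ s j}) = 0 := by
  classical
  set N := Ap ℓ ∩ {s : Walk d | ∀ j, 0 < j → ¬RegenTime ℓ s j}
  set p := annealed μ (D0 ℓ)
  set g := W μ [e] * p with hg
  have hp0 : p ≠ 0 := fun h => hp (measure_mono_null Dp_subset_D0 h)
  have hg0 : g ≠ 0 := mul_ne_zero (W_pos hel _).ne' hp0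
  have main : ∀ k : ℕ, ∀ l : List (Dir d), annealed μ (cyl l ∩ N) ≤ (1 - g) ^ k * W μ l := by
    intro k
    induction k with
    | zero =>
      intro l
      simpa [annealed_cyl] using measure_mono (μ := annealed μ) (Set.inter_subset_left (s := cyl l))
    | succ k ih =>
      intro l
      obtain ⟨M, hM⟩ : ∃ M : ℝ, ∀ i ≤ l.length, Lt ℓ l i < M :=
        ⟨1 + ∑ i ∈ Finset.range (l.length + 1), |Lt ℓ l i|, fun i hi => by
          have := Finset.single_le_sum (f := fun i => |Lt ℓ l i|) (fun j _ => abs_nonneg _)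
            (Finset.mem_range.2 (Nat.lt_succ_of_le hi))
          have := le_abs_self (Lt ℓ l i)
          linarith⟩
      let S : Set (List (Dir d)) := {m | m ∈ firstPass ℓ M ∧ m.take l.length = l}
      have hS : ∀ s : Walk d, ∀ a b, pre s a ∈ S → pre s b ∈ S → a = b :=
        fun s a b ha hb => firstPass_unique M s a b ha.1 hb.1
      -- the attempt `m ++ [e]` has failed
      let Bad : List (Dir d) → List (Dir d) → Prop := fun m m' =>
        m'.take (m.length + 1) ≠ m ++ [e] ∨ lev ℓ (endPt m') < lev ℓ (endPt m) + 4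
      let F : List (Dir d) → Set (List (Dir d)) := fun m =>
        {m' | m'.take m.length = m ∧ m.length < m'.length ∧ Bad m m' ∧
          ∀ i, m.length < i → i < m'.length → ¬Bad m (m'.take i)}
      have htake : ∀ (s : Walk d) {a c : ℕ}, a ≤ c → (pre s c).take a = pre s a := fun s a c h =>
        List.ext_getElem (by simp; omega) fun i _ _ => by
          rw [List.getElem_take, getElem_pre, getElem_pre]
      have hFu : ∀ m, ∀ s : Walk d, ∀ a b, pre s a ∈ F m → pre s b ∈ F m → a = b := by
        intro m s a b ha hb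
        by_contra hne
        wlog hab : a < b generalizing a b
        · exact this b a hb ha (Ne.symm hne) (by omega)
        refine hb.2.2.2 a (by simpa using ha.2.1) (by simpa using hab) ?_
        rw [htake s hab.le]; exact ha.2.2.1
      have cover : cyl l ∩ N ⊆ ⋃ m : S, ⋃ m' : F m.1, cyl m'.1 ∩ N := by
        rintro s ⟨hsl, hsA, hsR⟩
        obtain ⟨a, ha⟩ := exists_firstPass (ℓ := ℓ) (s := s) M
          ((Filter.tendsto_atTop.1 hsA M).exists)
        have hla : l.length < a := by
          by_contra hc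
          have h1 := hM a (not_lt.1 hc)
          have h2 := ha.1
          rw [endPt_pre] at h2
          have h3 : Lt ℓ l a = lev ℓ (pos s a) := by
            simp [Lt, pos_of_mem_cyl hsl (not_lt.1 hc)]
          linarith
        have hmS : pre s a ∈ S := ⟨ha, by
          rw [htake s hla.le]; exact (mem_cyl_iff _ _).1 hsl⟩
        have hfail : ∃ b, a < b ∧ Bad (pre s a) (pre s b) := by
          by_contra hc
          push Not at hc
          have hgood : ∀ b, a < b → (pre s b).take (a + 1) = pre s a ++ [e] ∧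
              lev ℓ (pos s a) + 4 ≤ lev ℓ (pos s b) := fun b hb => by
            have := hc b hb
            simpa [Bad, not_or, endPt_pre] using this
          have h1 := (hgood (a + 1) (by omega)).1
          rw [htake s le_rfl] at h1
          have h2 : lev ℓ (pos s (a + 1)) = lev ℓ (pos s a) + 4 := by
            rw [← endPt_pre, h1, endPt_concat, map_add, hN.step, endPt_pre]
          refine hsR (a + 1) (by omega) ⟨fun i hi => ?_, fun i hi => ?_⟩
          · rw [h2]
            rcases Nat.lt_succ_iff_lt_or_eq.1 hi with h | h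
            · have h3 := firstPass_last ha i (by simpa using h)
              rw [Lt_pre s h.le, endPt_pre] at h3
              linarith
            · rw [h]
          · rw [h2]; exact (hgood i (by omega)).2
        refine Set.mem_iUnion.2 ⟨⟨_, hmS⟩, Set.mem_iUnion.2
          ⟨⟨pre s (Nat.find hfail), ?_⟩, by simp [mem_cyl_iff], hsA, hsR⟩⟩
        obtain ⟨h1, h2⟩ := Nat.find_spec hfail
        refine ⟨by simp only [length_pre]; exact htake s h1.le, by simpa using h1, h2,
          fun i hi hi' hb => ?_⟩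
        rw [length_pre] at hi hi'
        rw [htake s hi'.le] at hb
        exact Nat.find_min hfail hi' ⟨hi, hb⟩
      have hF : ∀ m : S, ∑' m' : F m.1, W μ m'.1 ≤ (1 - g) * W μ m.1 := by
        intro m
        set m1 := m.1 ++ [e] with hm1
        refine (tsum_W_le (hFu m.1)
          (E := cyl m.1 \ (cyl m1 ∩ shift m1.length ⁻¹' D0 ℓ)) ?_).trans ?_
        · rintro m' hm' s hs
          refine ⟨cyl_subset_of_take hm'.1 hs, fun ⟨hc, hD⟩ => ?_⟩
          have e1 := (mem_cyl_iff _ _).1 hs
          have e2 := (mem_cyl_iff _ _).1 hc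
          have hle : m1.length ≤ m'.length := by simp [m1]; exact hm'.2.1
          have e3 : m'.take (m.1.length + 1) = m1 := by
            rw [← e1, htake s (by simpa [m1] using hle)]
            simpa [m1] using e2
          rcases hm'.2.2.1 with h | h
          · exact h e3
          · have h2 := hD (m'.length - m1.length)
            rw [← e1, endPt_pre, ← Nat.add_sub_cancel' hle, lev_pos_shift, pos_of_mem_cyl hc le_rfl,
              List.take_length, hm1, endPt_concat, map_add, hN.step] at h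
            simp only [m1] at h2 h
            linarith
        · have hlast := firstPass_last m.2.1
          have hsub : cyl m1 ∩ shift m1.length ⁻¹' D0 ℓ ⊆ cyl m.1 := fun s hs => by
            have := hs.1
            rw [hm1, cyl_append] at this
            exact this.1
          rw [measure_sdiff hsub (((measurableSet_cyl _).inter
              (measurable_shift _ (measurableSet_D0 ℓ))).nullMeasurableSet) (measure_ne_top _ _),
            annealed_fresh _ (measurableSet_D0 ℓ) (fun s hs n => fresh_of_last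
              (fun i hi => by have := margin_of_last hN hlast i hi; simp only [m1]; linarith) hs n),
            annealed_cyl, hm1, W_concat hlast,
            ENNReal.sub_mul (fun _ _ => W_ne_top _), one_mul, hg, mul_assoc,
            mul_comm (W μ [e] * p)]
      calc annealed μ (cyl l ∩ N)
          ≤ ∑' m : S, ∑' m' : F m.1, annealed μ (cyl m'.1 ∩ N) :=
            ((measure_mono cover).trans (measure_iUnion_le _)).trans
              (ENNReal.tsum_le_tsum fun m => measure_iUnion_le _)
        _ ≤ ∑' m : S, ∑' m' : F m.1, (1 - g) ^ k * W μ m'.1 :=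
            ENNReal.tsum_le_tsum fun m => ENNReal.tsum_le_tsum fun m' => ih _
        _ ≤ ∑' m : S, (1 - g) ^ k * ((1 - g) * W μ m.1) :=
            ENNReal.tsum_le_tsum fun m => by rw [ENNReal.tsum_mul_left]; gcongr; exact hF m
        _ = (1 - g) ^ (k + 1) * ∑' m : S, W μ m.1 := by
            rw [ENNReal.tsum_mul_left, ENNReal.tsum_mul_left, pow_succ, mul_assoc]
        _ ≤ (1 - g) ^ (k + 1) * W μ l := by
            gcongr
            rw [← annealed_cyl]
            exact tsum_W_le hS fun m hm => cyl_subset_of_take hm.2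
  have hlim : Tendsto (fun k : ℕ => (1 - g) ^ k * W μ ([] : List (Dir d))) atTop (𝓝 0) := by
    have h1 : (1 - g) < 1 := ENNReal.sub_lt_self ENNReal.one_ne_top one_ne_zero hg0
    simpa using ENNReal.Tendsto.mul_const (ENNReal.tendsto_pow_atTop_nhds_zero_of_lt_one h1)
      (Or.inr (W_ne_top _))
  refine le_antisymm (ge_of_tendsto' hlim fun k => ?_) bot_le
  simpa using main k []

/-- The block weights sum to one. -/
theorem tsum_blk (hel : IsElliptic μ) (hN : Nrm ℓ e) (hp : annealed μ (Dp ℓ) ≠ 0) : ∑' b : Blk ℓ, W μ b.1 = 1 := by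
  have h : annealed μ (Dp ℓ) = (∑' b : Blk ℓ, W μ b.1) * annealed μ (Dp ℓ) := by
    have hu : annealed μ (⋃ bs : Fin 1 → Blk ℓ, blkEvent bs) = annealed μ (Dp ℓ) := by
      refine le_antisymm (measure_mono (Set.iUnion_subset fun bs => blkEvent_subset_Dp bs)) ?_
      refine le_trans (measure_mono (t := (⋃ bs : Fin 1 → Blk ℓ, blkEvent bs) ∪
        (Ap ℓ ∩ {s | ∀ j, 0 < j → ¬RegenTime ℓ s j})) ?_) ?_
      · intro s hs
        by_cases h : ∀ j, 0 < j → ¬RegenTime ℓ s j
        · exact Or.inr ⟨hs.2, h⟩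
        · push Not at h
          obtain ⟨j, hj, hr⟩ := h
          obtain ⟨k, bs, hcat, hmem⟩ := exists_cat_of_regen hs j hr
          cases k with
          | zero =>
            rw [cat_zero] at hcat
            have := congrArg List.length hcat
            simp at this; omega
          | succ k =>
            refine Or.inl (Set.mem_iUnion.2 ⟨fun _ => bs 0, ?_⟩)
            have hc : cat (fun _ : Fin 1 => bs 0) = (bs 0).1 := by simp [cat]
            have h1 := hmem.1
            rw [cat_succ, cyl_append] at h1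
            refine ⟨by rw [hc]; exact h1.1, ?_⟩
            rw [hc, Set.mem_preimage]
            refine blkEvent_subset_Dp (Fin.tail bs) ⟨h1.2, ?_⟩
            have h2 := hmem.2
            simp only [Set.mem_preimage] at h2 ⊢
            convert h2 using 1
            funext i; simp [shift, cat_succ, add_assoc]
      · exact (measure_union_le _ _).trans (by rw [annealed_noRegen hel hN hp, add_zero])
    rw [measure_iUnion (blkEvent_disjoint 1) measurableSet_blkEvent] at hu
    simp only [annealed_blkEvent, Fin.prod_univ_one] at hu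
    rw [ENNReal.tsum_mul_right] at hu
    rw [← (Equiv.funUnique (Fin 1) (Blk ℓ)).tsum_eq (fun b => W μ b.1)]
    exact hu.symm
  exact ((ENNReal.mul_left_inj hp (measure_ne_top _ _)).1 (h.symm.trans (one_mul _).symm))

lemma firstPass_lt (hN : Nrm ℓ e) {m : ℝ} (hm : 0 < m) {l : List (Dir d)}
    (hl : l ∈ firstPass ℓ m) : lev ℓ (endPt l) < m + 4 := by
  cases l using List.reverseRecOn with
  | nil =>
    have := hl.1
    simp only [endPt_nil, map_zero] at this
    linarith
  | append_singleton l f =>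
    have h1 := hl.2 l.length (by simp)
    rw [Lt_append_left _ _ _ le_rfl, Lt_length] at h1
    rw [endPt_concat, map_add]
    have := le_abs_self (lev ℓ (dirVec f))
    have := hN.le f
    linarith

/-- Every window of levels of width `4` contains a regeneration level with probability bounded
below. -/
theorem window_bound (hN : Nrm ℓ e) (hp : annealed μ (Dp ℓ) ≠ 0) {m : ℝ} (hm : 0 < m) :
    W μ [e] * annealed μ (Dp ℓ) ≤ ∑' k : ℕ, ∑' bs : Fin k → Blk ℓ,
      {bs : Fin k → Blk ℓ | m + 4 ≤ lev ℓ (endPt (cat bs)) ∧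
        lev ℓ (endPt (cat bs)) < m + 8}.indicator (fun bs => ∏ i, W μ (bs i).1) bs := by
  classical
  set p := annealed μ (Dp ℓ) with hpdef
  let S : Set (List (Dir d)) := {l | l ∈ firstPass ℓ m ∧ ∀ i ≤ l.length, 0 ≤ Lt ℓ l i}
  have hS : ∀ s : Walk d, ∀ a b, pre s a ∈ S → pre s b ∈ S → a = b :=
    fun s a b ha hb => firstPass_unique m s a b ha.1 hb.1
  let E : ∀ k, (Fin k → Blk ℓ) → Set (Walk d) := fun k bs =>
    if m + 4 ≤ lev ℓ (endPt (cat bs)) ∧ lev ℓ (endPt (cat bs)) < m + 8
      then blkEvent bs else ∅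
  have hmar : ∀ l : S, ∀ i < (l.1 ++ [e]).length,
      Lt ℓ (l.1 ++ [e]) i + 4 ≤ lev ℓ (endPt (l.1 ++ [e])) :=
    fun l => margin_of_last hN (firstPass_last l.2.1)
  have h1 : W μ [e] * p * p ≤ annealed μ (⋃ k, ⋃ bs, E k bs) := by
    have h2 : p ≤ ∑' l : S, W μ l.1 := by
      simp only [← annealed_cyl]
      refine le_trans (measure_mono ?_) (measure_iUnion_le _)
      intro s hs
      obtain ⟨a, ha⟩ := exists_firstPass (ℓ := ℓ) (s := s) m
        ((Filter.tendsto_atTop.1 hs.2 m).exists)
      refine Set.mem_iUnion.2 ⟨⟨pre s a, ha, fun i hi => ?_⟩, by simp [mem_cyl_iff]⟩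
      rw [length_pre] at hi
      rw [Lt_pre s hi]; exact hs.1 i
    calc W μ [e] * p * p ≤ (∑' l : S, W μ l.1) * (W μ [e] * p) := by
          rw [mul_comm _ p]; exact mul_le_mul' h2 le_rfl
      _ = annealed μ (⋃ l : S, cyl (l.1 ++ [e]) ∩ shift (l.1 ++ [e]).length ⁻¹' Dp ℓ) := by
        rw [measure_iUnion (fun l l' h => ((cyl_pairwise_disjoint hS h).mono
          (fun s hs => by have := hs.1; rw [cyl_append] at this; exact this.1)
          (fun s hs => by have := hs.1; rw [cyl_append] at this; exact this.1)))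
          (fun l => (measurableSet_cyl _).inter (measurable_shift _ (measurableSet_Dp ℓ))),
          ← ENNReal.tsum_mul_right]
        refine tsum_congr fun l => ?_
        rw [annealed_fresh _ (measurableSet_Dp ℓ) (fun s hs n =>
          fresh_of_last (fun i hi => by linarith [hmar l i hi]) hs.1 n),
          W_concat (firstPass_last l.2.1), mul_assoc]
      _ ≤ _ := by
        refine measure_mono (Set.iUnion_subset fun l s hs => ?_)
        obtain ⟨hc, hD⟩ := hs
        set L := l.1 ++ [e] with hL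
        have hlev : lev ℓ (endPt L) = lev ℓ (endPt l.1) + 4 := by
          rw [hL, endPt_concat, map_add, hN.step]
        have hlow : m ≤ lev ℓ (endPt l.1) := l.2.1.1
        have hDp : s ∈ Dp ℓ := by
          refine ⟨fun n => ?_, (tendsto_shift_iff s _).1 hD.2⟩
          rcases le_or_gt n l.1.length with h | h
          · rw [pos_of_mem_cyl hc (by simp [L]; omega)]
            have := l.2.2 n h
            rw [Lt] at this
            rwa [hL, List.take_append_of_le_length h]
          · obtain ⟨j, rfl⟩ := Nat.exists_eq_add_of_le (show L.length ≤ n by simp [L]; omega)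
            rw [lev_pos_shift, pos_of_mem_cyl hc le_rfl, List.take_length, hlev]
            linarith [hD.1 j]
        have hr : RegenTime ℓ s L.length := by
          refine ⟨fun i hi => ?_, fun i hi => ?_⟩
          · rw [pos_of_mem_cyl hc hi.le, pos_of_mem_cyl hc le_rfl, List.take_length]
            exact hmar l i hi
          · obtain ⟨j, rfl⟩ := Nat.exists_eq_add_of_le hi
            rw [lev_pos_shift]; linarith [hD.1 j]
        obtain ⟨k, bs, hcat, hmem⟩ := exists_cat_of_regen hDp _ hr
        refine Set.mem_iUnion.2 ⟨k, Set.mem_iUnion.2 ⟨bs, ?_⟩⟩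
        rw [(mem_cyl_iff _ _).1 hc] at hcat
        simp only [E, hcat]
        rw [if_pos ⟨by linarith, by linarith [firstPass_lt hN hm l.2.1]⟩]
        exact hmem
  have h3 : annealed μ (⋃ k, ⋃ bs, E k bs) ≤ (∑' k : ℕ, ∑' bs : Fin k → Blk ℓ,
      {bs : Fin k → Blk ℓ | m + 4 ≤ lev ℓ (endPt (cat bs)) ∧
        lev ℓ (endPt (cat bs)) < m + 8}.indicator
          (fun bs => ∏ i, W μ (bs i).1) bs) * p := by
    rw [← ENNReal.tsum_mul_right]
    refine (measure_iUnion_le _).trans (ENNReal.tsum_le_tsum fun k => ?_)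
    rw [← ENNReal.tsum_mul_right]
    refine (measure_iUnion_le _).trans (ENNReal.tsum_le_tsum fun bs => ?_)
    simp only [E]
    split_ifs with h
    · rw [Set.indicator_of_mem (by exact h), annealed_blkEvent]
    · simp
  exact (ENNReal.mul_le_mul_iff_left hp (measure_ne_top _ _)).1 (h1.trans h3)

instance (ℓ : Fin d → ℝ) : MeasurableSpace (Blk ℓ) := ⊤

instance (ℓ : Fin d → ℝ) : MeasurableSingletonClass (Blk ℓ) := ⟨fun _ => trivial⟩

/-- The law of a block. -/
def blkPMF (hel : IsElliptic μ) (hN : Nrm ℓ e) (hp : annealed μ (Dp ℓ) ≠ 0) : PMF (Blk ℓ) :=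
  ⟨fun b => W μ b.1, by rw [← tsum_blk hel hN hp]; exact ENNReal.summable.hasSum⟩

lemma blkPMF_apply (hel : IsElliptic μ) (hN : Nrm ℓ e) (hp : annealed μ (Dp ℓ) ≠ 0) (b : Blk ℓ) :
    blkPMF hel hN hp b = W μ b.1 := rfl

/-- The level gained by a block, rounded up. -/
def blkLev (b : Blk ℓ) : ℕ := ⌈lev ℓ (endPt b.1)⌉₊

lemma lev_le_blkLev (b : Blk ℓ) : lev ℓ (endPt b.1) ≤ blkLev b := Nat.le_ceil _

lemma blkLev_lt (b : Blk ℓ) : (blkLev b : ℝ) < lev ℓ (endPt b.1) + 1 :=
  Nat.ceil_lt_add_one b.2.lev_pos.le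

lemma blkLev_le_two (b : Blk ℓ) : (blkLev b : ℝ) ≤ 2 * lev ℓ (endPt b.1) := by
  linarith [blkLev_lt b, b.2.lev_ge]

lemma four_le_blkLev (b : Blk ℓ) : 4 ≤ blkLev b := by
  have := b.2.lev_ge.trans (lev_le_blkLev b)
  exact_mod_cast this

/-- The exact level after `k` blocks. -/
def lsum (ω : ℕ → Blk ℓ) (k : ℕ) : ℝ := ∑ t ∈ Finset.range k, lev ℓ (endPt (ω t).1)

@[simp] lemma lsum_zero (ω : ℕ → Blk ℓ) : lsum ω 0 = 0 := by simp [lsum]

lemma lsum_succ (ω : ℕ → Blk ℓ) (k : ℕ) : lsum ω (k + 1) = lsum ω k + lev ℓ (endPt (ω k).1) := by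
  simp [lsum, Finset.sum_range_succ]

lemma lsum_head (ω : ℕ → Blk ℓ) (k : ℕ) : lev ℓ (endPt (cat (head k ω))) = lsum ω k := by
  rw [endPt_cat, map_sum, lsum, Finset.sum_range]
  rfl

lemma lsum_gap (ω : ℕ → Blk ℓ) {i j : ℕ} (hij : i ≤ j) :
    lsum ω i + 4 * ((j : ℝ) - i) ≤ lsum ω j := by
  induction j, hij using Nat.le_induction with
  | base => simp
  | succ j _ ih =>
    rw [lsum_succ]
    push_cast
    linarith [(ω j).2.lev_ge]

lemma measurable_lsum (k : ℕ) : Measurable fun ω : ℕ → Blk ℓ => lsum ω k :=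
  measurable_of_head k (fun g => lev ℓ (endPt (cat g))) fun ω => (lsum_head ω k).symm

theorem mean_blkLev (hel : IsElliptic μ) (hN : Nrm ℓ e) (hp : annealed μ (Dp ℓ) ≠ 0) :
    ∑' b, blkPMF hel hN hp b * (blkLev b : ℝ≥0∞) ≠ ⊤ := by
  refine mean_ne_top (blkPMF hel hN hp) blkLev (δ := W μ [e] * annealed μ (Dp ℓ))
    (mul_ne_zero (W_pos hel _).ne' hp)
    (ENNReal.mul_ne_top (W_ne_top _) (measure_ne_top _ _)) ENNReal.zero_ne_top 8 18 fun M => ?_
  set q := blkPMF hel hN hp
  set δ := W μ [e] * annealed μ (Dp ℓ)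
  let V : ℕ → ℕ → Set (ℕ → Blk ℓ) := fun t k =>
    {ω | 1 + 4 * (t : ℝ) + 4 ≤ lsum ω k ∧ lsum ω k < 1 + 4 * (t : ℝ) + 8}
  have hwin : ∀ t : ℕ, δ ≤ ∑' k, seqLaw q (V t k) := by
    intro t
    refine (window_bound hN hp (m := 1 + 4 * (t : ℝ)) (by positivity)).trans
      (le_of_eq (tsum_congr fun k => ?_))
    have : V t k = {ω | head k ω ∈ {bs : Fin k → Blk ℓ |
        1 + 4 * (t : ℝ) + 4 ≤ lev ℓ (endPt (cat bs)) ∧
          lev ℓ (endPt (cat bs)) < 1 + 4 * (t : ℝ) + 8}} := by
      ext ω
      simp only [V, Set.mem_ofPred_eq, lsum_head]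
    rw [this, seqLaw_head_mem]
    rfl
  calc (M : ℝ≥0∞) * δ = ∑ _t ∈ Finset.range M, δ := by simp
    _ ≤ ∑ t ∈ Finset.range M, ∑' k, seqLaw q (V t k) := Finset.sum_le_sum fun t _ => hwin t
    _ = ∑' k, ∑ t ∈ Finset.range M, seqLaw q (V t k) :=
      (Summable.tsum_finsetSum fun _ _ => ENNReal.summable).symm
    _ ≤ ∑' k, seqLaw q {ω | psum blkLev ω k < 8 * M + 18} := by
      refine ENNReal.tsum_le_tsum fun k => ?_
      have hmV : ∀ t, MeasurableSet (V t k) := fun t => measurable_lsum k measurableSet_Ico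
      rw [← measure_biUnion_finset ?_ fun t _ => hmV t]
      · refine measure_mono (Set.iUnion₂_subset fun t ht ω hω => ?_)
        have h1 : (psum blkLev ω k : ℝ) ≤ 2 * lsum ω k := by
          simp only [psum, lsum, Nat.cast_sum, Finset.mul_sum]
          exact Finset.sum_le_sum fun i _ => blkLev_le_two _
        have h2 : (t : ℝ) + 1 ≤ M := by exact_mod_cast Finset.mem_range.1 ht
        have h3 := hω.2
        have : (psum blkLev ω k : ℝ) < ((8 * M + 18 : ℕ) : ℝ) := by push_cast; linarith
        exact_mod_cast this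
      · intro t _ t' _ hne
        refine Set.disjoint_left.2 fun ω h h' => hne ?_
        obtain ⟨a1, a2⟩ := h
        obtain ⟨b1, b2⟩ := h'
        rcases lt_trichotomy t t' with hl | hl | hl
        · have : (t : ℝ) + 1 ≤ t' := by exact_mod_cast hl
          linarith
        · exact hl
        · have : (t' : ℝ) + 1 ≤ t := by exact_mod_cast hl
          linarith
    _ = _ := (add_zero _).symm

end Vale.Agent.P147.Re
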