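import Vale.Agent.P147.Real.Chain
import Vale.Agent.P147.Dir.Trigger

/-!
Probability of a deviation of the tilted coordinate near a given level, real directions.

Levels are binned by the integer part of the level at the start of a block; consecutive starts are
at least four levels apart, so distinct blocks have distinct bins.
-/

noncomputable section

namespace Vale.Agent.P147.Re

open MeasureTheory ProbabilityTheory Filter
open scoped ENNReal

set_option linter.unusedSectionVars false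

variable {d : ℕ} {μ : Measure (Row d)} {ℓ : Fin d → ℝ} {e : Dir d}
  {ψ : (Fin d → ℤ) →+ ℤ} {sl h lam : ℕ}

/-- Variation of the tilted coordinate inside a block, the lateral part truncated at `B`. -/
def bvar (ψ : (Fin d → ℤ) →+ ℤ) (sl B : ℕ) (b : Blk ℓ) : ℕ :=
  min (2 * lext ψ b) B + 2 * sl * blkLev b

lemma lev_in_block (b : Blk ℓ) {i : ℕ} (hi : i ≤ b.1.length) :
    0 ≤ lev ℓ (endPt (b.1.take i)) ∧ lev ℓ (endPt (b.1.take i)) ≤ blkLev b := by
  refine ⟨b.2.nonneg i hi, le_trans ?_ (lev_le_blkLev b)⟩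
  rcases hi.lt_or_eq with h | h
  · have := b.2.last i h
    rw [Lt_length] at this
    simp only [Lt] at this
    linarith
  · rw [h, List.take_length]

/-- The tilted coordinate inside a block. -/
lemma wt_in_block (b : Blk ℓ) {i : ℕ} (hi : i ≤ b.1.length) :
    -(lext ψ b : ℝ) ≤ wt ℓ ψ sl (endPt (b.1.take i)) ∧
      wt ℓ ψ sl (endPt (b.1.take i)) ≤ lext ψ b + 2 * sl * blkLev b := by
  obtain ⟨l1, l2⟩ := lev_in_block b hi
  have h1 : |((ψ (endPt (b.1.take i)) : ℤ) : ℝ)| ≤ lext ψ b := by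
    rw [← Int.cast_abs]; exact_mod_cast abs_psi_le_ext b hi
  obtain ⟨h2, h3⟩ := abs_le.1 h1
  rw [wt_apply]
  have h4 := mul_le_mul_of_nonneg_left l2 (show (0 : ℝ) ≤ 2 * sl by positivity)
  have h5 := mul_nonneg (show (0 : ℝ) ≤ 2 * sl by positivity) l1
  constructor <;> linarith

lemma wt_start_diff (ω : ℕ → Blk ℓ) {i j : ℕ} (hij : i ≤ j) :
    wt ℓ ψ sl (endPt (cat (head j ω))) - wt ℓ ψ sl (endPt (cat (head i ω))) ≤
      ∑ t ∈ Finset.Ico i j, ((2 * lext ψ (ω t) + 2 * sl * blkLev (ω t) : ℕ) : ℝ) := by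
  induction j, hij using Nat.le_induction with
  | base => simp
  | succ j hj ih =>
    rw [Finset.sum_Ico_succ_top hj, head_succ_cat, endPt_append, map_add]
    have h1 := (wt_in_block (ψ := ψ) (sl := sl) (ω j) (le_refl (ω j).1.length)).2
    rw [List.take_length] at h1
    push_cast at ih ⊢
    have : (0 : ℝ) ≤ lext ψ (ω j) := Nat.cast_nonneg _
    linarith

lemma lsum_lt_of_lt (ω : ℕ → Blk ℓ) {i j : ℕ} (hij : i < j) : lsum ω i + 4 ≤ lsum ω j := by
  have h1 := lsum_gap ω hij.le
  have h2 : (i : ℝ) + 1 ≤ j := by exact_mod_cast hij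
  linarith

lemma lsum_nonneg (ω : ℕ → Blk ℓ) (i : ℕ) : 0 ≤ lsum ω i := by
  have h1 := lsum_gap ω (Nat.zero_le i)
  have h2 : (0 : ℝ) ≤ i := Nat.cast_nonneg _
  simp only [lsum_zero, Nat.cast_zero, sub_zero, zero_add] at h1
  linarith

lemma floor_lsum_inj (ω : ℕ → Blk ℓ) {I I' : ℕ} (h : ⌊lsum ω I⌋₊ = ⌊lsum ω I'⌋₊) : I = I' := by
  by_contra hne
  wlog hlt : I < I' generalizing I I'
  · exact this h.symm (Ne.symm hne) (by omega)
  have h1 := lsum_lt_of_lt ω hlt
  have h2 := Nat.floor_le (lsum_nonneg ω I)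
  have h3 := Nat.lt_floor_add_one (lsum ω I')
  rw [← h] at h3
  linarith

lemma cover_unique (ω : ℕ → Blk ℓ) {c : ℝ} {I I' : ℕ} (h1 : lsum ω I ≤ c)
    (h2 : c < lsum ω (I + 1)) (h1' : lsum ω I' ≤ c) (h2' : c < lsum ω (I' + 1)) : I = I' := by
  by_contra hne
  wlog hlt : I < I' generalizing I I'
  · exact this h1' h2' h1 h2 (Ne.symm hne) (by omega)
  rcases (show I + 1 ≤ I' from hlt).eq_or_lt with h | h
  · rw [← h] at h1'; linarith
  · linarith [lsum_lt_of_lt ω h]

lemma index_le_floor (ω : ℕ → Blk ℓ) {c : ℝ} {I : ℕ} (h1 : lsum ω I ≤ c) : I ≤ ⌊c⌋₊ := by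
  refine Nat.le_floor ?_
  have h2 := lsum_gap ω (Nat.zero_le I)
  have h3 : (0 : ℝ) ≤ I := Nat.cast_nonneg _
  simp only [lsum_zero, Nat.cast_zero, sub_zero, zero_add] at h2
  linarith

/-- The block `I` straddles `c` and starts in the bin `n`. -/
def CoverAt (ℓ : Fin d → ℝ) (c : ℝ) (I n : ℕ) : Set (ℕ → Blk ℓ) :=
  {ω | ⌊lsum ω I⌋₊ = n ∧ lsum ω I ≤ c ∧ c < lsum ω (I + 1)}

/-- Heavy averages backwards from the index `I`. -/
def HeavyBack (f : Blk ℓ → ℕ) (lam N I : ℕ) : Set (ℕ → Blk ℓ) :=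
  {ω | ∃ j, 1 ≤ j ∧ j ≤ N ∧ j ≤ I ∧ lam * j < ∑ t ∈ Finset.range j, f (ω (I - 1 - t))}

/-- A block near the level `c` carries a deviation. -/
def TrigBlocks (ℓ : Fin d → ℝ) (f : Blk ℓ → ℕ) (lam h : ℕ) (c : ℝ) : Set (ℕ → Blk ℓ) :=
  ⋃ I ∈ Finset.range (⌊c⌋₊ + 1), ⋃ n ∈ Finset.range (⌊c⌋₊ + 1), CoverAt ℓ c I n ∩
    ((fun ω i => ω ((I + 1) + i)) ⁻¹' HeavySeq f lam (h + 1) ∪
      (fun ω i => ω (I + i)) ⁻¹' {η | lam < f (η 0)} ∪ HeavyBack f lam (h + 1) I)

lemma exists_cover (ω : ℕ → Blk ℓ) {c : ℝ} (hc : 0 ≤ c) :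
    ∃ I ≤ ⌊c⌋₊, lsum ω I ≤ c ∧ c < lsum ω (I + 1) := by
  classical
  have hex : ∃ I, c < lsum ω (I + 1) := by
    refine ⟨⌊c⌋₊, ?_⟩
    have h1 := lsum_gap ω (Nat.zero_le (⌊c⌋₊ + 1))
    have h2 := Nat.lt_floor_add_one c
    simp only [lsum_zero, Nat.cast_zero, sub_zero, zero_add] at h1
    push_cast at h1
    linarith
  have h0 : lsum ω (Nat.find hex) ≤ c := by
    rcases Nat.eq_zero_or_pos (Nat.find hex) with h0 | h0
    · rw [h0, lsum_zero]; exact hc
    · have := Nat.find_min hex (show Nat.find hex - 1 < Nat.find hex by omega)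
      rw [Nat.sub_add_cancel h0] at this
      exact not_lt.1 this
  exact ⟨Nat.find hex, index_le_floor ω h0, h0, Nat.find_spec hex⟩

variable [IsProbabilityMeasure μ]

/-- A trigger is seen in the blocks. -/
theorem trig_le (hel : IsElliptic μ) (hN : Nrm ℓ e) (hp : annealed μ (Dp ℓ) ≠ 0) {c : ℝ}
    (hc : 0 ≤ c) :
    annealed μ (Dp ℓ ∩ {s | ∃ t, Trig ℓ ψ sl h (4 * lam) c (pre s t)}) ≤
      annealed μ (Dp ℓ) * seqLaw (blkPMF hel hN hp)
        (TrigBlocks ℓ (bvar ψ sl (4 * lam * h + 1)) lam h c) := by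
  classical
  set f : Blk ℓ → ℕ := bvar ψ sl (4 * lam * h + 1) with hf
  set C := ⌊c⌋₊ with hC
  refine Dp_inter_le hel hN hp (k := C + 2 * h + 3) ?_ ?_
  · intro ω η he hω
    simp only [TrigBlocks, Set.mem_iUnion, Finset.mem_range, ← hC] at hω ⊢
    obtain ⟨I, hI, n, hn, ⟨h0, h1, h2⟩, hh⟩ := hω
    have heq : ∀ t < C + 2 * h + 3, η t = ω t := fun t ht => (congrFun he ⟨t, ht⟩).symm
    have hls : ∀ q ≤ I + 1, lsum η q = lsum ω q := fun q hq =>
      Finset.sum_congr rfl fun t ht => by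
        rw [heq t (by have := Finset.mem_range.1 ht; omega)]
    refine ⟨I, hI, n, hn, ⟨?_, ?_, ?_⟩, ?_⟩
    · rw [hls I (by omega)]; exact h0
    · rw [hls I (by omega)]; exact h1
    · rw [hls _ le_rfl]; exact h2
    · rcases hh with (⟨j, hj1, hj2, hj⟩ | hm) | ⟨j, hj1, hj2, hj3, hj⟩
      · refine Or.inl (Or.inl ⟨j, hj1, hj2, hj.trans_eq (Finset.sum_congr rfl fun t ht => ?_)⟩)
        have := Finset.mem_range.1 ht
        simp only [zero_add]
        rw [heq _ (by omega)]
      · refine Or.inl (Or.inr ?_)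
        simp only [Set.mem_preimage, Set.mem_ofPred_eq, add_zero] at hm ⊢
        rw [heq I (by omega)]; exact hm
      · refine Or.inr ⟨j, hj1, hj2, hj3, hj.trans_eq (Finset.sum_congr rfl fun t ht => ?_)⟩
        have := Finset.mem_range.1 ht
        rw [heq _ (by omega)]
  rintro ω s hs ⟨t, -, -, m, hm1, hmh, htop, u, hu, ⟨i, hiu, hilow⟩, hdev⟩
  rw [length_pre] at hu
  rw [endPt_pre, endPt_take_pre s hu] at hdev
  rw [Lt_pre s (hiu.trans hu)] at hilow
  set k := C + 2 * h + 3 with hk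
  have hm1' : (1 : ℝ) ≤ m := by exact_mod_cast hm1
  have hmh' : (m : ℝ) ≤ h := by exact_mod_cast hmh
  have hlev : ∀ q ≤ t, lev ℓ (pos s q) ≤ c + m := fun q hq => by
    have := htop q (by simpa using hq)
    rwa [Lt_pre s hq] at this
  have hlen : t < (cat (head k ω)).length := by
    by_contra hge
    rw [not_lt] at hge
    have h1 := (blkEvent_regen _ hs).2 t hge
    rw [pos_of_mem_cyl hs.1 le_rfl, List.take_length, lsum_head] at h1
    have h2 := lsum_gap ω (Nat.zero_le k)
    have h3 := hlev t le_rfl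
    have h4 := Nat.lt_floor_add_one c
    have h5 : (k : ℝ) = C + 2 * h + 3 := by rw [hk]; push_cast; ring
    simp only [lsum_zero, Nat.cast_zero, sub_zero, zero_add] at h2
    have h6 : (0 : ℝ) ≤ h := Nat.cast_nonneg _
    have h7 : (0 : ℝ) ≤ C := Nat.cast_nonneg _
    linarith
  obtain ⟨J, hJ, v, hv, htJ⟩ := exists_block_at ω hlen
  obtain ⟨J', hJ', v', hv', huJ⟩ := exists_block_at ω (show u < (cat (head k ω)).length by omega)
  have hJJ : J' ≤ J := by
    by_contra hlt
    have := start_mono ω (show J + 1 ≤ J' by omega)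
    rw [head_succ_cat, List.length_append] at this
    omega
  -- positions
  have hpt := pos_block hs.1 hJ hv.le
  have hpu := pos_block hs.1 hJ' hv'.le
  rw [← htJ] at hpt
  rw [← huJ] at hpu
  set g : ℕ → ℕ := fun q => 2 * lext ψ (ω q) + 2 * sl * blkLev (ω q) with hg
  have hvar : 4 * lam * m < ∑ q ∈ Finset.Icc J' J, g q := by
    suffices hR : (4 * lam * m : ℝ) < ∑ q ∈ Finset.Icc J' J, (g q : ℝ) by exact_mod_cast hR
    refine lt_of_lt_of_le (by push_cast at hdev; exact hdev) ?_
    rw [hpt, hpu, map_add, map_add]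
    have hWJ := (wt_in_block (ψ := ψ) (sl := sl) (ω J) hv.le).2
    have hWJ' := (wt_in_block (ψ := ψ) (sl := sl) (ω J') hv'.le).1
    have h0 : (0 : ℝ) ≤ lext ψ (ω J) := Nat.cast_nonneg _
    rcases hJJ.eq_or_lt with hEq | hLt
    · subst hEq
      simp only [Finset.Icc_self, Finset.sum_singleton, hg]
      push_cast
      linarith
    · have h8 := wt_start_diff (ψ := ψ) (sl := sl) ω (show J' + 1 ≤ J from hLt)
      have hX := (wt_in_block (ψ := ψ) (sl := sl) (ω J') (le_refl (ω J').1.length)).2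
      rw [List.take_length] at hX
      rw [head_succ_cat ω J', endPt_append, map_add] at h8
      rw [← Finset.Ico_succ_right_eq_Icc, Order.succ_eq_add_one, Finset.sum_Ico_succ_top hJJ,
        Finset.sum_eq_sum_Ico_succ_bot hLt]
      simp only [hg]
      push_cast at h8 ⊢
      linarith
  -- truncation
  have hsum : 4 * lam * m < ∑ q ∈ Finset.Icc J' J, f (ω q) := by
    by_cases hall : ∀ q ∈ Finset.Icc J' J, 2 * lext ψ (ω q) ≤ 4 * lam * h + 1
    · have : ∑ q ∈ Finset.Icc J' J, f (ω q) = ∑ q ∈ Finset.Icc J' J, g q :=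
        Finset.sum_congr rfl fun q hq => by simp [f, g, bvar, min_eq_left (hall q hq)]
      rw [this]
      exact hvar
    · push Not at hall
      obtain ⟨q, hq, hbig⟩ := hall
      calc 4 * lam * m < 4 * lam * h + 1 := Nat.lt_succ_of_le (Nat.mul_le_mul_left _ hmh)
        _ ≤ f (ω q) := by simp [f, bvar, min_eq_right hbig.le]
        _ ≤ _ := Finset.single_le_sum (f := fun q => f (ω q)) (fun _ _ => Nat.zero_le _) hq
  -- position of the straddling block
  obtain ⟨I, hIc, hI1, hI2⟩ := exists_cover ω hc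
  have hJI : J ≤ I + m := by
    by_contra hlt
    have h1 := hlev t le_rfl
    rw [hpt, map_add, lsum_head] at h1
    have l1 := (lev_in_block (ω J) hv.le).1
    have h2 := lsum_gap ω (show I + 1 ≤ J by omega)
    have h3 : (I : ℝ) + m + 1 ≤ J := by exact_mod_cast (show I + m + 1 ≤ J by omega)
    push_cast at h2
    linarith
  have hIJ : I ≤ J' + (m + 1) := by
    by_contra hlt
    have hi' : i < (cat (head k ω)).length := by omega
    obtain ⟨Q, hQ, w, hw, hiQ⟩ := exists_block_at ω hi'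
    have hQJ : Q ≤ J' := by
      by_contra hlt'
      have := start_mono ω (show J' + 1 ≤ Q by omega)
      rw [head_succ_cat, List.length_append] at this
      omega
    have hpi := pos_block hs.1 hQ hw.le
    rw [← hiQ] at hpi
    have l5 := (lev_in_block (ω Q) hw.le).2
    have l6 := blkLev_lt (ω Q)
    rw [hpi, map_add, lsum_head] at hilow
    have h1 := lsum_succ ω Q
    have h2 := lsum_gap ω (show Q + 1 ≤ I by omega)
    have h3 : (Q : ℝ) + m + 2 ≤ I := by exact_mod_cast (show Q + m + 2 ≤ I by omega)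
    push_cast at h2
    linarith
  simp only [TrigBlocks, Set.mem_iUnion, Finset.mem_range]
  refine ⟨I, by omega, ⌊lsum ω I⌋₊, Nat.lt_succ_of_le (Nat.floor_mono hI1), ⟨rfl, hI1, hI2⟩, ?_⟩
  -- split the window in three
  set back := ∑ q ∈ Finset.Ico (I - (m + 1)) I, f (ω q)
  set fwd := ∑ q ∈ Finset.Ico (I + 1) (I + 1 + m), f (ω q)
  have hsplit : ∑ q ∈ Finset.Icc J' J, f (ω q) ≤ back + f (ω I) + fwd := by
    refine (Finset.sum_le_sum_of_subset (t := Finset.Ico (I - (m + 1)) (I + 1 + m)) ?_).trans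
      (le_of_eq ?_)
    · intro q hq
      simp only [Finset.mem_Icc] at hq
      simp only [Finset.mem_Ico]
      omega
    · simp only [back, fwd]
      rw [← Finset.sum_Ico_succ_top (show I - (m + 1) ≤ I by omega),
        Finset.sum_Ico_consecutive _ (by omega) (by omega)]
  have hlm : lam ≤ lam * m := Nat.le_mul_of_pos_right lam hm1
  have h4m : 4 * lam * m = 4 * (lam * m) := by ring
  rcases lt_or_ge (2 * (lam * m)) back with hb | hb
  · refine Or.inr ⟨I - (I - (m + 1)), ?_, by omega, by omega, ?_⟩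
    · by_contra h0
      simp only [back] at hb
      rw [show I - (m + 1) = I by omega, Finset.Ico_self, Finset.sum_empty] at hb
      exact Nat.not_lt_zero _ hb
    · calc lam * (I - (I - (m + 1))) ≤ lam * (m + 1) := Nat.mul_le_mul_left _ (by omega)
        _ ≤ 2 * (lam * m) := by rw [mul_add, mul_one]; omega
        _ < back := hb
        _ = _ := by
          simp only [back]
          rw [Finset.sum_Ico_eq_sum_range, ← Finset.sum_range_reflect]
          refine Finset.sum_congr rfl fun q hq => ?_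
          have := Finset.mem_range.1 hq
          congr 2
          omega
  rcases lt_or_ge (lam * m) fwd with hf' | hf'
  · refine Or.inl (Or.inl ⟨m, hm1, by omega, ?_⟩)
    simp only [fwd] at hf'
    rw [Finset.sum_Ico_eq_sum_range, show I + 1 + m - (I + 1) = m by omega] at hf'
    simpa [zero_add] using hf'
  · refine Or.inl (Or.inr ?_)
    simp only [Set.mem_preimage, Set.mem_ofPred_eq, add_zero]
    omega

/-- Probability of the block event. -/
theorem trigBlocks_le (p : PMF (Blk ℓ)) (f : Blk ℓ → ℕ) (N : ℕ) (c : ℝ) :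
    seqLaw p (TrigBlocks ℓ f lam N c) ≤
      (1 + 2 * ∑' b, p b * (blkLev b : ℝ≥0∞)) * seqLaw p (HeavySeq f lam (N + 1)) +
        2 * ∑' b, {b : Blk ℓ | lam < f b}.indicator (fun b => p b * (blkLev b : ℝ≥0∞)) b := by
  classical
  set P := seqLaw p
  set Q := P (HeavySeq f lam (N + 1))
  set M := ∑' b, {b : Blk ℓ | lam < f b}.indicator (fun b => p b * (blkLev b : ℝ≥0∞)) b
  set EH := ∑' b, p b * (blkLev b : ℝ≥0∞)
  set C := ⌊c⌋₊ with hC
  set R := Finset.range (C + 1) ×ˢ Finset.range (C + 1)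
  let K : ℕ → ℕ → Set (ℕ → Blk ℓ) := fun I n => {ω | ⌊lsum ω I⌋₊ = n}
  let T : ℕ → Set (Blk ℓ) := fun n => {b | C ≤ n + blkLev b}
  have hlsd : ∀ I, ∀ ω η : ℕ → Blk ℓ, head I ω = head I η → lsum ω I = lsum η I :=
    fun I ω η hh => by rw [← lsum_head, ← lsum_head, hh]
  have hKdep : ∀ I n, ∀ ω η, head I ω = head I η → ω ∈ K I n → η ∈ K I n :=
    fun I n ω η hh hω => by
      simp only [K, Set.mem_ofPred_eq] at hω ⊢
      rw [← hlsd I ω η hh]; exact hω
  have hcovdep : ∀ I n, ∀ ω η, head (I + 1) ω = head (I + 1) η →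
      ω ∈ CoverAt ℓ c I n → η ∈ CoverAt ℓ c I n := by
    intro I n ω η hh hω
    have h1 := hlsd (I + 1) ω η hh
    have h2 := hlsd I ω η (funext fun i => congrFun hh ⟨i, i.2.trans I.lt_succ_self⟩)
    simp only [CoverAt, Set.mem_ofPred_eq] at hω ⊢
    rw [← h1, ← h2]; exact hω
  have hF : MeasurableSet (HeavySeq f lam (N + 1)) := measurableSet_heavySeq f lam (N + 1)
  have h0m : ∀ S : Set (Blk ℓ), MeasurableSet {η : ℕ → Blk ℓ | η 0 ∈ S} := fun S =>
    measurable_pi_apply 0 (Set.to_countable S).measurableSet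
  have hP0 : ∀ S : Set (Blk ℓ), P {η | η 0 ∈ S} = ∑' b, S.indicator (fun b => p b) b := by
    intro S
    have h1 : {η : ℕ → Blk ℓ | η 0 ∈ S} = {η | head 1 η ∈ {g | g 0 ∈ S}} := rfl
    rw [h1, seqLaw_head_mem, ← (Equiv.funUnique (Fin 1) (Blk ℓ)).symm.tsum_eq]
    exact tsum_congr fun b => by by_cases hb : b ∈ S <;> simp [hb, Set.indicator_apply]
  have hdisj : ∀ n, (↑(Finset.range (C + 1)) : Set ℕ).PairwiseDisjoint (fun I => K I n) := by
    intro n I _ I' _ hne
    refine Set.disjoint_left.2 fun ω hω hω' => hne ?_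
    simp only [K, Set.mem_ofPred_eq] at hω hω'
    exact floor_lsum_inj ω (hω.trans hω'.symm)
  have hK1 : ∀ n, ∑ I ∈ Finset.range (C + 1), P (K I n) ≤ 1 := by
    intro n
    rw [← measure_biUnion_finset (hdisj n) fun I _ => measurableSet_of_head I (hKdep I n)]
    exact prob_le_one
  have hKH : ∀ n, ∑ I ∈ Finset.range (C + 1), P (K I n ∩ HeavySeq f lam (N + 1)) ≤ Q := by
    intro n
    rw [← measure_biUnion_finset
      ((hdisj n).mono fun I => Set.inter_subset_left)
      fun I _ => (measurableSet_of_head I (hKdep I n)).inter hF]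
    exact measure_mono (Set.iUnion₂_subset fun I _ => Set.inter_subset_right)
  have hfwd : ∀ I n, P (CoverAt ℓ c I n ∩ (fun ω i => ω ((I + 1) + i)) ⁻¹'
      HeavySeq f lam (N + 1)) = P (CoverAt ℓ c I n) * Q :=
    fun I n => seqLaw_inter_shift p (I + 1) (hcovdep I n) hF
  have hcov1 : ∑ q ∈ R, P (CoverAt ℓ c q.1 q.2) ≤ 1 := by
    rw [← measure_biUnion_finset ?_ fun q _ => measurableSet_of_head (q.1 + 1) (hcovdep q.1 q.2)]
    · exact prob_le_one
    · intro q _ q' _ hne
      refine Set.disjoint_left.2 fun ω hω hω' => hne ?_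
      have := cover_unique ω hω.2.1 hω.2.2 hω'.2.1 hω'.2.2
      exact Prod.ext this (by rw [← hω.1, ← hω'.1, this])
  have htail : ∀ S : Set (Blk ℓ), ∑ n ∈ Finset.range (C + 1), P {η | η 0 ∈ S ∩ T n} ≤
      2 * ∑' b, S.indicator (fun b => p b * (blkLev b : ℝ≥0∞)) b := by
    intro S
    simp only [hP0]
    rw [← Summable.tsum_finsetSum fun _ _ => ENNReal.summable, ← ENNReal.tsum_mul_left]
    refine ENNReal.tsum_le_tsum fun b => ?_
    by_cases hb : b ∈ S
    · rw [Set.indicator_of_mem hb, Finset.sum_congr rfl (fun n _ => Set.indicator_apply _ _ _)]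
      simp only [T, Set.mem_inter_iff, hb, true_and, Set.mem_ofPred_eq]
      rw [← Finset.sum_filter, Finset.sum_const, nsmul_eq_mul, mul_comm (p b), ← mul_assoc]
      refine mul_le_mul' ?_ le_rfl
      rw [← Nat.cast_ofNat (n := 2), ← Nat.cast_mul]
      refine Nat.cast_le.2 ?_
      calc ((Finset.range (C + 1)).filter fun n => C ≤ n + blkLev b).card
          ≤ (Finset.Icc (C - blkLev b) C).card := by
            refine Finset.card_le_card fun n hn => ?_
            simp only [Finset.mem_filter, Finset.mem_range] at hn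
            simp only [Finset.mem_Icc]
            omega
        _ ≤ 2 * blkLev b := by
            rw [Nat.card_Icc]
            have := four_le_blkLev b
            omega
    · simp [hb]
  -- the straddling block starts at most its height below `c`
  have hsub : ∀ I n, ∀ ω ∈ CoverAt ℓ c I n, ω I ∈ T n := by
    rintro I n ω ⟨h1, h2, h3⟩
    rw [lsum_succ] at h3
    have h4 := Nat.lt_floor_add_one (lsum ω I)
    have h5 := lev_le_blkLev (ω I)
    have h6 := lsum_nonneg ω I
    have h7 := Nat.floor_le (h6.trans h2)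
    rw [h1] at h4
    have h8 : (C : ℝ) < (n : ℝ) + blkLev (ω I) + 1 := by linarith
    have h9 : C < n + blkLev (ω I) + 1 := by exact_mod_cast h8
    simp only [T, Set.mem_ofPred_eq]
    omega
  have hmid : ∀ I n, P (CoverAt ℓ c I n ∩ (fun ω i => ω (I + i)) ⁻¹' {η | lam < f (η 0)}) ≤
      P (K I n) * P {η | η 0 ∈ {b | lam < f b} ∩ T n} := by
    intro I n
    rw [← seqLaw_inter_shift p I (hKdep I n) (h0m _)]
    refine measure_mono fun ω ⟨hω, hω'⟩ => ⟨hω.1, ?_⟩
    simp only [Set.mem_preimage, Set.mem_ofPred_eq, add_zero, Set.mem_inter_iff] at hω' ⊢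
    exact ⟨hω', hsub I n ω hω⟩
  have hback : ∀ I n, P (CoverAt ℓ c I n ∩ HeavyBack f lam (N + 1) I) ≤
      P (K I n ∩ HeavySeq f lam (N + 1)) * P {η | η 0 ∈ T n} := by
    intro I n
    have hdep : ∀ ω η, head I ω = head I η → ω ∈ K I n ∩ HeavyBack f lam (N + 1) I →
        η ∈ K I n ∩ HeavyBack f lam (N + 1) I := by
      intro ω η hh ⟨hk, j, hj1, hj2, hj3, hj⟩
      refine ⟨hKdep I n ω η hh hk, j, hj1, hj2, hj3,
        hj.trans_eq (Finset.sum_congr rfl fun t _ => ?_)⟩
      have h2 := congrFun hh ⟨I - 1 - t, by omega⟩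
      simp only [head] at h2
      rw [h2]
    refine le_trans (measure_mono (t := (K I n ∩ HeavyBack f lam (N + 1) I) ∩
        (fun ω i => ω (I + i)) ⁻¹' {η | η 0 ∈ T n}) ?_) ?_
    · intro ω ⟨hω, hω'⟩
      exact ⟨⟨hω.1, hω'⟩, by simpa using hsub I n ω hω⟩
    rw [seqLaw_inter_shift p I hdep (h0m _)]
    refine mul_le_mul' ?_ le_rfl
    -- reversal
    let S : Set (Fin I → Blk ℓ) := {g | ⌊∑ i, lev ℓ (endPt (g i).1)⌋₊ = n ∧
      ∃ j, 1 ≤ j ∧ j ≤ N + 1 ∧ ∃ hj : j ≤ I, lam * j < ∑ t : Fin j, f (g (Fin.castLE hj t))}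
    have e1 : K I n ∩ HeavyBack f lam (N + 1) I ⊆ {ω | head I ω ∘ Fin.rev ∈ S} := by
      rintro ω ⟨hk, j, hj1, hj2, hj3, hj⟩
      refine ⟨?_, j, hj1, hj2, hj3, ?_⟩
      · simp only [K, Set.mem_ofPred_eq, lsum, Finset.sum_range] at hk
        rw [← hk]
        congr 1
        exact Fintype.sum_equiv Fin.revPerm _ _ fun i => rfl
      · refine hj.trans_eq ?_
        rw [Finset.sum_range]
        refine Finset.sum_congr rfl fun t _ => ?_
        simp only [head, Function.comp, Fin.val_rev, Fin.val_castLE]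
        congr 2
        omega
    have e2 : {ω | head I ω ∈ S} ⊆ K I n ∩ HeavySeq f lam (N + 1) := by
      rintro ω ⟨hk, j, hj1, hj2, hj3, hj⟩
      refine ⟨?_, j, hj1, hj2, ?_⟩
      · simpa [K, lsum, Finset.sum_range, head] using hk
      · rw [Finset.sum_range]
        simpa [head] using hj
    refine le_trans (measure_mono e1) ?_
    rw [← seqLaw_head_rev]
    exact measure_mono e2
  calc P (TrigBlocks ℓ f lam N c)
      ≤ ∑ q ∈ R, (P (CoverAt ℓ c q.1 q.2) * Q +
          P (K q.1 q.2) * P {η | η 0 ∈ {b | lam < f b} ∩ T q.2} +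
          P (K q.1 q.2 ∩ HeavySeq f lam (N + 1)) * P {η | η 0 ∈ T q.2}) := by
        rw [Finset.sum_product, TrigBlocks]
        refine (measure_biUnion_finset_le _ _).trans (Finset.sum_le_sum fun I _ => ?_)
        refine (measure_biUnion_finset_le _ _).trans (Finset.sum_le_sum fun n _ => ?_)
        rw [Set.inter_union_distrib_left, Set.inter_union_distrib_left]
        refine (measure_union_le _ _).trans (add_le_add ((measure_union_le _ _).trans ?_) ?_)
        · rw [hfwd]; exact add_le_add le_rfl (hmid I n)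
        · exact hback I n
    _ ≤ Q + 2 * M + 2 * EH * Q := by
        rw [Finset.sum_add_distrib, Finset.sum_add_distrib]
        refine add_le_add (add_le_add ?_ ?_) ?_
        · rw [← Finset.sum_mul]
          exact mul_le_of_le_one_left' hcov1
        · rw [Finset.sum_product_right]
          refine le_trans (Finset.sum_le_sum fun n _ => ?_) (htail {b | lam < f b})
          dsimp only
          rw [← Finset.sum_mul]
          exact mul_le_of_le_one_left' (hK1 n)
        · rw [Finset.sum_product_right]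
          calc _ ≤ ∑ n ∈ Finset.range (C + 1), Q * P {η | η 0 ∈ T n} :=
                Finset.sum_le_sum fun n _ => by
                  dsimp only
                  rw [← Finset.sum_mul]; exact mul_le_mul' (hKH n) le_rfl
            _ ≤ _ := by
                rw [← Finset.mul_sum, mul_comm]
                refine mul_le_mul' ?_ le_rfl
                simpa using htail Set.univ
    _ = _ := by ring

end Vale.Agent.P147.Re
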